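import Crest.Agent.N221.Ex.Main
import Crest.Agent.N221.Dy.Sp

/-! Row 221, block EXIT (helper94): the abstract atlas instantiated by the Darboux atlas. -/

set_option autoImplicit false
set_option linter.unusedSectionVars false
set_option linter.unusedVariables false

open MeasureTheory Set Filter Topology Metric
open scoped ContDiff RealInnerProductSpace ENNReal
open Crest.GeometryTopology.Submanifold
open Crest.Agent.R241.DDefs Crest.Agent.R241.D2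
open Crest.Agent.R208.J Crest.Agent.R208.L

noncomputable section

namespace Crest.Agent.N221.Cov

variable {n N m : ℕ} {a : ℝ} {S : Set (Euc N)} {G : Geo n N (-(a ^ 2)) S} (C : Cov G)
variable {f f' f'' : FF n N m} {z z' : ZZ m} {x y y' ξ η : Euc n} {v u u' : Euc N} {q q' : Euc m}
  {g : Euc n → Euc n} {s t : ℝ}
open Ex

/-- the atlas -/
def At (m : ℕ) (R0 ρ : ℝ) (Gd : Set {f : FF n N m // C.Frm f}) : Atl (Euc m) where
  F := {f : FF n N m // C.Frm f}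
  r := C.rr m
  ρ := ρ
  cl f f' := C.dd f.1.1 f'.1.1 ≤ R0
  dom f f' := C.dm f.1 f'.1
  T f f' := C.Tf f.1 f'.1
  Gd := Gd

/-- the time `T` map on frames -/
def nx (T : ℝ) (f : {f : FF n N m // C.Frm f}) : {f : FF n N m // C.Frm f} :=
  ⟨C.fw f.1 T, f.2.fw C T⟩

/-- frames that pass near a translate of `f₁` within the time `T` -/
def Gd (f₁ : FF n N m) (T ρ : ℝ) : Set {f : FF n N m // C.Frm f} :=
  {f | ∃ g s, C.Deck g ∧ |s| ≤ T ∧ C.dd f₁.1 (C.gd (g f.1.1) f.1.2.1 s) ≤ ρ ∧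
    ‖C.vel (g f.1.1) f.1.2.1 s - f₁.2.1‖ ≤ ρ}

variable {R0 ρ T R : ℝ} {D : Set {f : FF n N m // C.Frm f}}

/-- stable side -/
def Sd (R0 ρ : ℝ) (D : Set {f : FF n N m // C.Frm f}) (T R : ℝ) : Side (C.At m R0 ρ D) where
  g f z := C.pq f.1 (C.ge f.1 z).1
  nx := C.nx T
  R := R
  κ := 1 / 2

/-- unstable side -/
def Ud (R0 ρ : ℝ) (D : Set {f : FF n N m // C.Frm f}) (T R : ℝ) : Side (C.At m R0 ρ D) where
  g f z q := -C.pq f.1 (C.ge f.1 z).2 q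
  nx := C.nx (-T)
  R := R
  κ := 1 / 2

lemma nx_iter (T : ℝ) (f : {f : FF n N m // C.Frm f}) (j : ℕ) :
    ((C.nx T)^[j] f).1 = C.fw f.1 (j * T) := by
  induction j with
  | zero => simp [C.fw_zero]
  | succ j ih =>
    rw [Function.iterate_succ_apply', nx]
    simp only [ih, C.fw_add f.2, Nat.cast_succ, add_mul, one_mul]

lemma ub_At {Y : Type} [NormedAddCommGroup Y] [NormedSpace ℝ Y]
    {A : FF n N m → FF n N m → ZZ m → Y} (hA : UB (fun p : {p : FF n N m × FF n N m //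
      C.Frm p.1 ∧ C.Frm p.2 ∧ C.dd p.1.1 p.2.1 ≤ R0} => C.dm p.1.1 p.1.2) fun p => A p.1.1 p.1.2) :
    UB (fun p : (C.At m R0 ρ D).P => C.dm p.1.1.1 p.1.2.1) fun p => A p.1.1.1 p.1.2.1 :=
  ⟨fun p => hA.op ⟨(p.1.1.1, p.1.2.1), p.1.1.2, p.1.2.2, p.2⟩,
    fun p => hA.sm ⟨(p.1.1.1, p.1.2.1), p.1.1.2, p.1.2.2, p.2⟩, fun k => (hA.bd k).imp fun _ h =>
      ⟨h.1, fun p => h.2 ⟨(p.1.1.1, p.1.2.1), p.1.1.2, p.1.2.2, p.2⟩⟩⟩

variable (H : Hyp n N a S) (hm : m + 1 = n)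
include H hm

lemma ub_Tf (R : ℝ) : UB (fun p : {p : FF n N m × FF n N m //
      C.Frm p.1 ∧ C.Frm p.2 ∧ C.dd p.1.1 p.2.1 ≤ R} => C.dm p.1.1 p.1.2) fun p => C.Tf p.1.1 p.1.2 :=
  ⟨fun p => C.isOpen_dm H hm p.2.1 p.2.2.1,
    fun p _ hz => (C.contDiffAt_Tf H hm p.2.1 p.2.2.1 hz).contDiffWithinAt, fun k => by
      obtain ⟨B, hB⟩ := C.jb_Tf H hm R k
      exact ⟨max B 1, by positivity, fun p z hz =>
        (hB (p.1, z) ⟨p.2.1, p.2.2.1, p.2.2.2, hz⟩).trans (le_max_left _ _)⟩⟩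

omit hm in
lemma ub_pq (R : ℝ) : UB (fun _ : {p : FF n N m × Euc n // C.Frm p.1 ∧ ‖p.2‖ = 1} =>
    ball (0 : Euc m) R) fun p => C.pq p.1.1 p.1.2 :=
  ⟨fun _ => isOpen_ball, fun p => (C.contDiff_pq H (bas_ne0 p.2.2) _).contDiffOn, fun k => by
    obtain ⟨B, hB⟩ := C.jb_pq (m := m) H R k
    exact ⟨max B 1, by positivity, fun p z hz =>
      (hB (p.1, z) ⟨p.2.1, p.2.2, (mem_ball_zero_iff.1 hz).le⟩).trans (le_max_left _ _)⟩⟩

lemma at_ok (h1 : 1 ≤ R0) (h2 : ρ ≤ C.rr m) : (C.At m R0 ρ D).Ok where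
  r_pos := C.rr_pos H hm
  ρ_le := h2
  ub := C.ub_At (A := C.Tf) (C.ub_Tf H hm R0)
  sub _ _ _ hz := mem_ball_zero_iff.2 hz.1
  maps _ f' _ hz := mem_ball_zero_iff.2 (C.Tf_spec H hm f'.2 hz).1
  ctr f z hz := by
    have hz' : ‖z‖ < C.rr m := mem_ball_zero_iff.1 hz
    obtain ⟨f₀, k1, k2, -, -, k3, k4, -⟩ := C.centre H hm f.2 hz'
    refine ⟨⟨f₀, k1⟩, ?_, k3, k4⟩
    change C.dd f.1.1 f₀.1 ≤ R0
    rw [k2, C.dd_hy f.2]
    linarith [norm_fst_le z, (C.rad H hm).le]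

lemma ub_pq_ge (i : Euc n × Euc n → Euc n) (h : ∀ p ∈ GG n, ‖i p‖ = 1) :
    UB (fun _ : (C.At m R0 ρ D).Q => ball (0 : Euc m) (C.rr m))
      fun p => C.pq p.1.1.1 (i (C.ge p.1.1.1 p.1.2)) := by
  have h1 := C.ub_pq (m := m) H (C.rr m)
  have k : ∀ p : (C.At m R0 ρ D).Q, C.Frm p.1.1.1 ∧ ‖i (C.ge p.1.1.1 p.1.2)‖ = 1 := fun p =>
    ⟨p.1.1.2, h _ (C.ge_GG H p.1.1.2 (C.Dm_lt H hm p.1.1.2 (mem_ball_zero_iff.1 p.2)))⟩
  exact ⟨fun _ => isOpen_ball, fun p => h1.sm ⟨(p.1.1.1, _), k p⟩,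
    fun j => (h1.bd j).imp fun _ h => ⟨h.1, fun p => h.2 ⟨(p.1.1.1, _), k p⟩⟩⟩

lemma cont_pq_ge (hf : C.Frm f) (i : Euc n × Euc n → Euc n) (hi : Continuous i)
    (h : ∀ p ∈ GG n, ‖i p‖ = 1) : ContinuousOn (fun p : ZZ m × Euc m => C.pq f (i (C.ge f p.1)) p.2)
      (ball 0 (C.rr m) ×ˢ ball 0 (C.rr m)) :=
  (C.jc_pq H).continuousOn.comp (f := fun p : ZZ m × Euc m => ((f, i (C.ge f p.1)), p.2))
    ((continuousOn_const.prodMk (hi.comp_continuousOn ((C.continuousOn_ge H).comp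
      (f := fun p : ZZ m × Euc m => (f, p.1)) (by fun_prop) fun p hp =>
        ⟨hf, C.Dm_lt H hm hf (mem_ball_zero_iff.1 hp.1)⟩))).prodMk continuousOn_snd)
    fun p hp => h _ (C.ge_GG H hf (C.Dm_lt H hm hf (mem_ball_zero_iff.1 hp.1)))

/-- dense set of points whose chain visits `Gd` infinitely often -/
lemma dense_Gd {f₁ : FF n N m} (h1 : C.Frm f₁) (hT : T ≠ 0) (hρ : 0 < ρ) (hR : 1 ≤ R0)
    (f : {f : FF n N m // C.Frm f}) : ∃ δ > 0, ∀ z ∈ ball (0 : ZZ m) δ, ∀ ε > 0,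
    ∃ z' ∈ ball (0 : ZZ m) δ, ∃ f' : {f : FF n N m // C.Frm f}, ‖z' - z‖ < ε ∧
      C.dd f.1.1 f'.1.1 ≤ R0 ∧ ball 0 δ ⊆ C.dm f.1 f'.1 ∧ C.Tf f.1 f'.1 z' = 0 ∧
      ∀ J, ∃ j, J ≤ j ∧ (C.nx T)^[j] f' ∈ C.Gd f₁ |T| ρ := by
  obtain ⟨f, hf⟩ := f
  obtain ⟨K, δ, pK, pδ, hs⟩ := C.step H hm 0
  obtain ⟨K1, p1, hn⟩ := C.uv_near H hm
  obtain ⟨x₀, v₀, h0, htr⟩ := C.exists_trans H trT
  have hr := C.rr_pos H hm
  have hr' := (C.rad H hm).le
  set d := min (C.rr m) (δ / (1 + K1)) with hd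
  have d1 : d ≤ C.rr m := min_le_left _ _
  have d2 : d * (1 + K1) ≤ δ := (le_div_iff₀ (by positivity)).1 (min_le_right _ _)
  have d0 : 0 < d := by positivity
  refine ⟨d, d0, fun z hz ε hε => ?_⟩
  have hz' := C.Dm_lt H hm hf ((mem_ball_zero_iff.1 hz).trans_le d1)
  have hu := C.un_uv H hf hz'
  obtain ⟨τ, Z, -, z1, -, z2, hev⟩ := C.loc_cross H hm (t := 0) hf hz' hu (C.gd_zero _ _).symm
    (C.vel_zero _ _).symm
  obtain ⟨e, he, hb⟩ := Metric.eventually_nhds_iff.1 (((Continuous.prodMk_right f).tendsto _).eventually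
    (hev.and (z1.continuousAt.eventually (show ∀ᶠ w in 𝓝 (Z (f, C.hy f z.1, C.uv f z)),
      w ∈ ball (0 : ZZ m) d ∩ ball z ε by
        rw [z2]; exact inter_mem (isOpen_ball.mem_nhds hz) (ball_mem_nhds _ hε)))))
  obtain ⟨g, t, hg, -, g1, g2⟩ := (htr _ _ hu e he 0).1
  have hu' : C.Un (g (C.gd x₀ v₀ t)) (C.vel x₀ v₀ t) := (Deck.un C hg).2 (h0.vel C t)
  obtain ⟨k1, k2, k3⟩ := hb (y := (g (C.gd x₀ v₀ t), C.vel x₀ v₀ t)) (max_lt
    (by rw [dist_comm, dist_eq_norm]; exact (C.norm_sub_le_dd H.a_pos.le _ _).trans_lt g1)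
    (by rwa [dist_comm, dist_eq_norm]))
  obtain ⟨k4, k5⟩ := k1 hf hu'
  set z' := Z (f, g (C.gd x₀ v₀ t), C.vel x₀ v₀ t)
  set t' := t + τ (f, g (C.gd x₀ v₀ t), C.vel x₀ v₀ t)
  have n1 : ‖z'‖ < d := mem_ball_zero_iff.1 k2
  obtain ⟨f', c1, c2, c3, -, -, c4, -⟩ := C.centre H hm hf (n1.trans_le d1)
  have e1 : f'.1 = g (C.gd x₀ v₀ t') := by
    rw [c2, k4, hg.gd_eq C (h0.vel C t).mem, C.gd_add h0.mem]
  have e2 : f'.2.1 = C.vel x₀ v₀ t' := by rw [c3, k5, hg.vel_eq C, C.vel_add h0.mem]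
  have e3 : C.dd f.1 f'.1 ≤ d := by rw [c2, C.dd_hy hf]; linarith [norm_fst_le z']
  refine ⟨z', k2, ⟨f', c1⟩, by rwa [← dist_eq_norm], by linarith, fun w hw => ?_, c4, fun J => ?_⟩
  · refine (hs f f' w 0 (d * (1 + K1)) hf c1 (by simp) d2 ?_ ?_ ?_).1
    · nlinarith [mem_ball_zero_iff.1 hw]
    · rw [C.gd_zero, C.dd_comm]; nlinarith
    · rw [C.vel_zero, c3, norm_sub_rev]
      nlinarith [hn f z' hf (by linarith)]
  · obtain ⟨k, s, hk, hs, b1, b2⟩ : ∃ k s, C.Deck k ∧ (J : ℝ) ≤ (s - t') / T ∧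
        C.dd f₁.1 (k (C.gd x₀ v₀ s)) < ρ ∧ ‖f₁.2.1 - C.vel x₀ v₀ s‖ < ρ := by
      rcases hT.lt_or_gt with hT | hT
      · obtain ⟨k, s, b0, b1, b2⟩ := (htr _ _ h1.un ρ hρ (-(t' + J * T))).2
        exact ⟨k, s, b0, (le_div_iff_of_neg hT).2 (by linarith), b2⟩
      · obtain ⟨k, s, b0, b1, b2⟩ := (htr _ _ h1.un ρ hρ (t' + J * T)).1
        exact ⟨k, s, b0, (le_div_iff₀ hT).2 (by linarith), b2⟩
    obtain ⟨g', hg', i1, -⟩ := hg.inv C
    have j1 := Nat.floor_le ((Nat.cast_nonneg J).trans hs)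
    have j2 := Nat.lt_floor_add_one ((s - t') / T)
    set j := ⌊(s - t') / T⌋₊
    have hv := (h0.vel C t').mem
    have hv' := (h0.vel C (t' + j * T)).mem
    refine ⟨j, Nat.le_floor hs, k ∘ g', s - (t' + j * T), hk.comp C hg', ?_, ?_⟩
    · rw [show s - (t' + j * T) = ((s - t') / T - j) * T by field_simp; ring, abs_mul]
      exact mul_le_of_le_one_left (abs_nonneg _) (abs_le.2 ⟨by linarith, by linarith⟩)
    · simp only [C.nx_iter, fw, e1, e2, hg.gd_eq C hv, hg.vel_eq C, hk.vel_eq C, C.gd_add h0.mem,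
        C.vel_add h0.mem, Function.comp, i1, hk.gd_eq C hv', add_sub_cancel]
      exact ⟨b1.le, by rw [norm_sub_rev]; exact b2.le⟩

lemma sides {f₁ : FF n N m} (h1 : C.Frm f₁) : ∃ T > 0, ∀ ρ > 0, ∀ R0, 1 ≤ R0 → T ≤ R0 → ∃ R,
    (C.Sd R0 ρ (C.Gd f₁ T ρ) T R).Ok ∧ (C.Ud R0 ρ (C.Gd f₁ T ρ) T R).Ok := by
  obtain ⟨R, T, pR, hR, pT, hc⟩ := C.chain_lf H hm
  obtain ⟨b, c, -, hc⟩ := hc T
  obtain ⟨K, pK, hK⟩ := C.pq_lip H hm
  refine ⟨T, pT, fun ρ hρ R0 r1 r2 => ?_⟩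
  have hr := (C.rad H hm).le
  have h0 : ‖(0 : ZZ m)‖ < C.rr m := by simpa using C.rr_pos H hm
  have small : ∀ f : FF n N m, C.Frm f → ∀ q ∈ ball (0 : Euc m) (min R (ρ / (K + 1))),
      ‖C.gs f (C.ge f 0).1 q‖ < ρ := fun f hf q hq => by
    rw [mem_ball_zero_iff, lt_min_iff, lt_div_iff₀ (by positivity)] at hq
    have d := C.Dm_lt H hm hf h0
    have := (hK f _ q 0 hf (C.ge_GG H hf d).1 (by linarith [hq.1]) (by simp)).2
    rw [show C.pq f (C.ge f 0).1 0 = 0 from congrArg Prod.snd (C.eq_gs H hf d), sub_zero,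
      sub_zero] at this
    have := norm_nonneg q
    exact max_lt (by change ‖q‖ < ρ; nlinarith [hq.2]) (by change ‖C.pq _ _ q‖ < ρ; nlinarith [hq.2])
  have sb : ball (0 : Euc m) (min R (ρ / (K + 1))) ⊆ ball 0 R := ball_subset_ball (min_le_left _ _)
  have pm : 0 < min R (ρ / (K + 1)) := by positivity
  refine ⟨min R (ρ / (K + 1)), ⟨pm, (min_le_left _ _).trans hR, one_half_pos,
    one_half_lt_one, C.ub_pq_ge H hm Prod.fst fun _ h => h.1,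
    fun f => C.cont_pq_ge H hm f.2 _ continuous_fst fun _ h => h.1,
    fun f z hz => congrArg Prod.snd (C.eq_gs H f.2 (C.Dm_lt H hm f.2 (mem_ball_zero_iff.1 hz))),
    fun f f' _ z hz q hq => ?_, fun f => ?_, fun f => (C.Tf_zero H hm f.2 (f.2.fw C T)
      (C.ov_fw _ _)).2.1, fun f q hq => ?_, fun f => ?_⟩,
    ⟨pm, (min_le_left _ _).trans hR, one_half_pos, one_half_lt_one,
    (C.ub_pq_ge H hm Prod.snd fun _ h => h.2.1).clm (-ContinuousLinearMap.id ℝ _),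
    fun f => (C.cont_pq_ge H hm f.2 _ continuous_snd fun _ h => h.2.1).neg,
    fun f z hz => congrArg Prod.snd (C.eq_gu H f.2 (C.Dm_lt H hm f.2 (mem_ball_zero_iff.1 hz))),
    fun f f' _ z hz q hq => ?_, fun f => ?_, fun f => (C.Tf_zero H hm f.2 (f.2.fw C _)
      (C.ov_fw _ _)).2.1, fun f q hq => ?_, fun f => ?_⟩⟩
  · have := (C.Tf_gs H hm f.2 f'.2 ((C.rad H hm).front _ f.2 z (by linarith [hz.1])) hq).1
    change (C.Tf f.1 f'.1 (C.gs _ _ q)).2 = C.pq f'.1 (C.ge f'.1 (C.Tf f.1 f'.1 z)).1 (C.lf _ _ _ q)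
    rw [this, (C.Tf_spec H hm f'.2 hz).2]; rfl
  · exact ((C.ov_fw f.1 T).dd C f.2).trans_le (by rwa [abs_of_pos pT])
  · obtain ⟨k1, -, k2, -⟩ := (hc _ _ T f.2 (f.2.fw C T) (C.ov_fw _ _) le_rfl le_rfl).1 q (sb hq)
    exact ⟨k1, mem_ball_zero_iff.2 (small _ f.2 q hq), k2⟩
  · have := C.dense_Gd H hm h1 pT.ne' hρ r1 f
    rwa [abs_of_pos pT] at this
  · have := (C.Tf_gu H hm f.2 f'.2 (C.back H hm f.2 (z := z) (by linarith [hz.1])) hq).1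
    change (C.Tf f.1 f'.1 (C.gu _ _ q)).2 =
      -C.pq f'.1 (C.ge f'.1 (C.Tf f.1 f'.1 z)).2 (C.Tf f.1 f'.1 (C.gu _ _ q)).1
    rw [this, (C.Tf_spec H hm f'.2 hz).2]; rfl
  · exact ((C.ov_fw f.1 (-T)).dd C f.2).trans_le (by rwa [abs_neg, abs_of_pos pT])
  · have e : (C.ge (fp f.1) 0).1 = (C.ge f.1 0).2 := by
      simpa only [show flp (0 : ZZ m) = 0 by simp [flp], Prod.fst_swap] using congrArg Prod.fst (C.ge_fp f.1 0)
    obtain ⟨k1, -, k2, -⟩ := (hc _ _ T (f.2.fp C) ((f.2.fw C (-T)).fp C)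
      (by simpa only [neg_neg] using (C.ov_fw f.1 (-T)).fp C f.2) le_rfl le_rfl).1 q (sb hq)
    have k3 := small _ (f.2.fp C) q hq
    rw [e] at k1 k2 k3
    rw [C.gs_fp, norm_flp] at k3
    rw [C.gs_fp, C.dm_fp] at k1
    refine ⟨k1, mem_ball_zero_iff.2 k3, ?_⟩
    have := (C.Tf_gu H hm f.2 (f.2.fw C (-T)) (C.back H hm f.2 (z := 0) (by linarith [h0])) k1).1
    change ‖(C.Tf f.1 (C.fw f.1 (-T)) (C.gu _ _ q)).1‖ ≤ _
    rw [this]; exact k2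
  · have := C.dense_Gd H hm h1 (neg_ne_zero.2 pT.ne') hρ r1 f
    rwa [abs_neg, abs_of_pos pT] at this

lemma trans_ok : Trans (C.Sd R0 ρ D T R) (C.Ud R0 ρ D T R) where
  low := ⟨a / 16, by linarith [H.a_pos], fun f z hz e => by
    have hz' : ‖z‖ < C.rr m := mem_ball_zero_iff.1 hz
    obtain ⟨h1, h2⟩ := C.Su_Ss H hm f.2 (z := z) (by linarith [norm_nonneg z]) e
    have e1 : (C.Ud R0 ρ D T R).sl f z = C.Su f.1 z := fderiv_fun_neg
    have h3 := real_inner_le_norm (C.Su f.1 z e - C.Ss f.1 z e) e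
    rw [inner_sub_left] at h3
    rw [e1]
    change _ ≤ ‖C.Su f.1 z e - C.Ss f.1 z e‖
    rcases (norm_nonneg e).eq_or_lt with h | h
    · rw [← h, mul_zero]; exact norm_nonneg _
    · exact le_of_mul_le_mul_right (by nlinarith) h⟩
  corner f ε hε := by
    obtain ⟨K, δ, pK, pδ, h⟩ := C.prod_box' H hm
    have hr := C.rr_pos H hm
    refine ⟨min δ (min ε (C.rr m) / (2 * K)), by positivity, fun z hz z' hz' => ?_⟩
    obtain ⟨w, w1, w2⟩ := h f.1 z' z _ f.2 (min_le_left _ _) (mem_ball_zero_iff.1 hz').le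
      (mem_ball_zero_iff.1 hz).le
    have w3 : ‖w‖ ≤ min ε (C.rr m) / 2 := w1.trans ((mul_le_mul_of_nonneg_left (min_le_right _ _)
      pK.le).trans_eq (by field_simp))
    have d := C.Dm_of_le H hm f.2 (z := w) (by linarith [min_le_right ε (C.rr m)])
    have e1 := congrArg Prod.snd (C.eq_gs H f.2 d)
    have e2 := congrArg Prod.snd (C.eq_gu H f.2 d)
    rw [w2] at e1 e2
    exact ⟨w.1, mem_ball_zero_iff.2 (by linarith [norm_fst_le w, min_le_left ε (C.rr m)]),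
      e2.trans e1.symm⟩

/-- LEMMA U on the real objects: a bounded continuous deck invariant section of a uniformly smooth
linear cocycle over the atlas that is smooth near one point is smooth everywhere -/
theorem smooth_of_germ {V : Type} [NormedAddCommGroup V] [NormedSpace ℝ V] [FiniteDimensional ℝ V]
    {A : FF n N m → FF n N m → ZZ m → V →L[ℝ] V} {σ : FF n N m → ZZ m → V}
    (hA : ∀ R, UB (fun p : {p : FF n N m × FF n N m //
      C.Frm p.1 ∧ C.Frm p.2 ∧ C.dd p.1.1 p.2.1 ≤ R} => C.dm p.1.1 p.1.2) fun p => A p.1.1 p.1.2)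
    (cont : ∀ f, C.Frm f → ContinuousOn (σ f) (ball 0 (C.rr m)))
    (bdd : ∃ M : ℝ, ∀ f, C.Frm f → ∀ z ∈ ball (0 : ZZ m) (C.rr m), ‖σ f z‖ ≤ M)
    (rel : ∀ f f', C.Frm f → C.Frm f' → ∀ z ∈ C.dm f f', σ f z = A f f' z (σ f' (C.Tf f f' z)))
    (inv : ∀ f g, C.Frm f → C.Deck g → EqOn (σ (fg g f)) (σ f) (ball 0 (C.rr m)))
    {f₀ : FF n N m} (h0 : C.Frm f₀) {z₀ : ZZ m} (hz : ‖z₀‖ < C.rr m)
    (hs : ∀ᶠ w in 𝓝 z₀, ContDiffAt ℝ ∞ (σ f₀) w) (hf : C.Frm f) :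
    ContDiffOn ℝ ∞ (σ f) (ball 0 (C.rr m)) := by
  obtain ⟨f₁, h1, -, -, -, c1, c2, -⟩ := C.centre H hm h0 hz
  obtain ⟨c3, c4, -⟩ := C.Tf_symm H hm h0 h1 c1
  rw [c2] at c3 c4
  have hs1 : ∀ᶠ w in 𝓝 (0 : ZZ m), ContDiffAt ℝ ∞ (σ f₁) w := by
    have o := C.isOpen_dm H hm h1 h0
    filter_upwards [o.mem_nhds c3, (C.contDiffAt_Tf H hm h1 h0 c3).continuousAt.eventually (c4 ▸ hs)]
      with w k1 k2
    exact (((hA _).at (i := ⟨(f₁, f₀), h1, h0, le_rfl⟩) k1).clm_apply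
      (k2.comp w (C.contDiffAt_Tf H hm h1 h0 k1))).congr_of_eventuallyEq
      (eventually_of_mem (o.mem_nhds k1) (rel _ _ h1 h0))
  obtain ⟨e, he, hb⟩ := Metric.eventually_nhds_iff_ball.1 hs1
  obtain ⟨T, pT, hS⟩ := C.sides H hm h1
  obtain ⟨K, δ, pK, pδ, st⟩ := C.step H hm T
  have hr := C.rr_pos H hm
  set ρ := min (min δ (C.rr m)) (min 1 (e / (4 * K))) with hρ
  have r1 : ρ ≤ δ := (min_le_left _ _).trans (min_le_left _ _)
  have r2 : ρ ≤ C.rr m := (min_le_left _ _).trans (min_le_right _ _)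
  have r3 : ρ ≤ 1 := (min_le_right _ _).trans (min_le_left _ _)
  have r4 : ρ * (4 * K) ≤ e :=
    (le_div_iff₀ (by positivity)).1 ((min_le_right _ _).trans (min_le_right _ _))
  obtain ⟨R, s1, s2⟩ := hS ρ (by positivity) (T + 1) (by linarith) (by linarith)
  obtain ⟨M, hM⟩ := bdd
  refine Sec.smooth (C.at_ok H hm (by linarith) r2) s1 s2 (C.trans_ok H hm)
    (A := fun f f' => A f.1 f'.1) (s := fun f => σ f.1) ⟨C.ub_At (hA (T + 1)), fun f => cont _ f.2,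
      ⟨max M 1, by positivity, fun f z hz => (hM _ f.2 z hz).trans (le_max_left _ _)⟩,
      fun f f' _ => rel _ _ f.2 f'.2, ?_⟩ ⟨f, hf⟩
  choose g s hg hs k1 k2 using fun f : C.Gd f₁ T ρ => f.2
  have key := fun (f : C.Gd f₁ T ρ) z (hz : z ∈ ball (0 : ZZ m) ρ) =>
    st (fg (g f) f.1.1) f₁ z (s f) ρ (f.1.2.fg C (hg f)) h1 (hs f) r1 (mem_ball_zero_iff.1 hz).le
      (k1 f) (k2 f)
  let ι : C.Gd f₁ T ρ → {p : FF n N m × FF n N m //
      C.Frm p.1 ∧ C.Frm p.2 ∧ C.dd p.1.1 p.2.1 ≤ T + 1} := fun f =>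
    ⟨(fg (g f) f.1.1, f₁), f.1.2.fg C (hg f), h1, by
      have := C.dd_triangle H.a_pos.le (g f f.1.1.1) (C.gd (g f f.1.1.1) f.1.1.2.1 (s f)) f₁.1
      rw [((Deck.un C (hg f)).2 f.1.2.un).dd_gd_zero C, C.dd_comm (C.gd _ _ _) f₁.1] at this
      exact this.trans (add_le_add (hs f) ((k1 f).trans r3))⟩
  have u1 := (hA (T + 1)).mono ι (U' := fun _ => ball 0 ρ) (fun _ => isOpen_ball)
    fun f z hz => (key f z hz).1
  have u2 := (C.ub_Tf H hm (T + 1)).mono ι (U' := fun _ => ball 0 ρ) (fun _ => isOpen_ball)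
    fun f z hz => (key f z hz).1
  have u3 : UB (fun _ : C.Gd f₁ T ρ => ball (0 : ZZ m) (e / 2)) fun _ => σ f₁ :=
    UB.of_compact isOpen_ball (fun w hw => (hb w hw).contDiffWithinAt)
      (isCompact_closedBall 0 (e / 2)) (closedBall_subset_ball (half_lt_self he))
      (fun _ => isOpen_ball) fun _ => ball_subset_closedBall
  exact (u1.clm_apply (u3.comp u2 fun f z hz => mem_ball_zero_iff.2
    ((key f z hz).2.1.trans_lt (by nlinarith)))).congr fun f z hz =>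
      (inv _ _ f.1.2 (hg f) (ball_subset_ball r2 hz)).symm.trans
        (rel _ _ (f.1.2.fg C (hg f)) h1 z (key f z hz).1)

end Crest.Agent.N221.Cov
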