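import Crest.Agent.N221.A1.PStep
import Crest.Agent.N221.A1.PTay
import Crest.Agent.N221.A1.PNe
import Crest.Agent.N221.A1.PRem

/-! Row 221, block EXIT: Lemma U.  A bounded invariant section over a chain of contractions that is
uniformly smooth at infinitely many times has a uniform Taylor expansion at time `0`. -/

set_option autoImplicit false

open Set Metric
open scoped ContDiff

namespace Crest.Agent.N221.Ex

theorem lemU (E V : Type) [NormedAddCommGroup E] [NormedSpace ℝ E] [FiniteDimensional ℝ E]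
    [NormedAddCommGroup V] [NormedSpace ℝ V] [FiniteDimensional ℝ V] {R κ : ℝ} (hR : 0 < R)
    (κ0 : 0 < κ) (κ1 : κ < 1) (c : ℕ → ℝ) : ∃ C : ℝ, 0 < C ∧
    ∀ (ψ : ℕ → E → E) (A : ℕ → E → V →L[ℝ] V) (F : ℕ → E → V) (M : ℝ) (d : ℕ → ℝ),
      (∀ j, ContDiffOn ℝ ∞ (ψ j) (ball 0 R)) → (∀ j, ContDiffOn ℝ ∞ (A j) (ball 0 R)) →
      (∀ j k, ∀ x ∈ ball (0 : E) R, ‖iteratedFDeriv ℝ k (ψ j) x‖ ≤ c k) →
      (∀ j k, ∀ x ∈ ball (0 : E) R, ‖iteratedFDeriv ℝ k (A j) x‖ ≤ c k) →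
      (∀ j, ∀ x ∈ ball (0 : E) R, ‖ψ j x‖ ≤ κ * ‖x‖) →
      (∀ j, ∀ x ∈ ball (0 : E) R, F j x = A j x (F (j + 1) (ψ j x))) →
      (∀ j, ∀ x ∈ ball (0 : E) R, ‖F j x‖ ≤ M) →
      (∀ J, ∃ j, J ≤ j ∧ ContDiffOn ℝ ∞ (F j) (ball 0 R) ∧
        ∀ k, ∀ x ∈ ball (0 : E) R, ‖iteratedFDeriv ℝ k (F j) x‖ ≤ d k) →
      ∃ L : E →L[ℝ] V, ‖L‖ ≤ C * M ∧
        ∀ x ∈ ball (0 : E) R, ‖F 0 x - F 0 0 - L x‖ ≤ C * M * ‖x‖ ^ 2 := by
  have := FiniteDimensional.complete ℝ V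
  have hT := PS.tayS PS.remS
  have hN := PS.neS PS.remS
  obtain ⟨n, hn⟩ := exists_pow_lt_of_lt_one (x := 1 / 4 / (|c 0| + 1)) (by positivity) κ1
  have hb : |c 0| * κ ^ (n + 1 + 1) ≤ 1 / 4 := by
    have a1 : κ ^ (n + 1 + 1) ≤ κ ^ n := pow_le_pow_of_le_one κ0.le κ1.le (by omega)
    rw [lt_div_iff₀ (by positivity)] at hn
    nlinarith [abs_nonneg (c 0), pow_pos κ0 n]
  obtain ⟨K, hK, hd⟩ := PS.Stp.der (E := E) (V := V) hT hN hR c (n + 1)
  obtain ⟨t1, t2, t3, -, t5⟩ := hT E V (n + 1)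
  obtain ⟨CN, hCN, hN⟩ := hN E V (n + 1) 2 R hR
  obtain ⟨r, r0, r1, r2⟩ : ∃ r : ℝ, 0 < r ∧ r < R ∧ K * (6 * R) ^ (n + 1) * r ≤ 1 / 4 :=
    ⟨min (R / 2) (1 / 4 / (K * (6 * R) ^ (n + 1))), by positivity,
      (min_le_left _ _).trans_lt (by linarith), (le_div_iff₀' (by positivity)).1 (min_le_right _ _)⟩
  obtain ⟨K', hK'⟩ : ∃ K', K' = K * (6 * R / r) ^ (n + 1) := ⟨_, rfl⟩
  have K0 : 0 < K' := by rw [hK']; positivity
  refine ⟨2 * K' * R ^ n + CN * ((6 * R / r) ^ (n + 1) * (1 + 2 * K' * r ^ (n + 1 + 1))), by positivity,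
    fun ψ A F M d sψ sA dψ dA con rel hM good => ?_⟩
  have M0 : 0 ≤ M := (norm_nonneg _).trans (hM 0 0 (mem_ball_self hR))
  have maps : ∀ j, MapsTo (ψ j) (ball 0 R) (ball 0 R) := fun j x hx => mem_ball_zero_iff.2
    (((con j x hx).trans (mul_le_of_le_one_left (norm_nonneg _) κ1.le)).trans_lt (mem_ball_zero_iff.1 hx))
  have nA : ∀ j, ∀ x ∈ ball (0 : E) R, ‖A j x‖ ≤ |c 0| := fun j x hx => by
    simpa only [norm_iteratedFDeriv_zero] using (dA j 0 x hx).trans (le_abs_self _)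
  have size : ∀ j ρ, 0 ≤ ρ → (∀ x ∈ ball (0 : E) R, ‖F j x - PS.tay (n + 1) (F j) x‖ ≤ ρ * ‖x‖ ^ (n + 1 + 1)) →
      ∀ x : E, ‖x‖ ≤ R → ‖PS.tay (n + 1) (F j) x‖ ≤ (6 * R / r) ^ (n + 1) * (M + ρ * r ^ (n + 1 + 1)) :=
    fun j ρ hρ h => t2 _ r R _ r0 r1.le fun x hx => by
      have hx' := mem_ball_zero_iff.2 (hx.trans_lt r1)
      refine (norm_le_norm_add_norm_sub _ _).trans (add_le_add (hM j x hx') ((h x hx').trans ?_))
      gcongr
  have main : ∀ T, ContDiffOn ℝ ∞ (F T) (ball 0 R) →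
      (∀ k, ∀ x ∈ ball (0 : E) R, ‖iteratedFDeriv ℝ k (F T) x‖ ≤ d k) → ∀ i j, j + i = T →
      ContDiffOn ℝ ∞ (F j) (ball 0 R) ∧ ∀ x ∈ ball (0 : E) R, ‖F j x - PS.tay (n + 1) (F j) x‖ ≤
        (2 * K' * M + |d (n + 1 + 1)| * (1 / 2) ^ i) * ‖x‖ ^ (n + 1 + 1) := by
    intro T sT dT i
    induction i with
    | zero =>
      rintro j rfl
      refine ⟨sT, fun x hx => (t1 _ R _ sT (dT _) x hx).trans
        (mul_le_mul_of_nonneg_right ?_ (by positivity))⟩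
      have : 0 ≤ 2 * K' * M := by positivity
      linarith [le_abs_self (d (n + 1 + 1))]
    | succ i ih =>
      intro j hj
      obtain ⟨s1, h1⟩ := ih (j + 1) (by omega)
      obtain ⟨ρ, hρ⟩ : ∃ ρ, ρ = 2 * K' * M + |d (n + 1 + 1)| * (1 / 2) ^ i := ⟨_, rfl⟩
      rw [← hρ] at h1
      have ρ0 : 0 ≤ ρ := by rw [hρ]; positivity
      have s0 : ContDiffOn ℝ ∞ (F j) (ball 0 R) := ((sA j).clm_apply (s1.comp (sψ j) (maps j))).congr (rel j)
      have hg : ContDiffOn ℝ ∞ (fun x => A j x (PS.tay (n + 1) (F (j + 1)) (ψ j x))) (ball 0 R) :=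
        (sA j).clm_apply ((t5 _).comp_contDiffOn (sψ j))
      have near : ∀ x ∈ ball (0 : E) R, ‖F j x - A j x (PS.tay (n + 1) (F (j + 1)) (ψ j x))‖ ≤
          1 / 4 * ρ * ‖x‖ ^ (n + 1 + 1) := fun x hx => by
        have a2 := con j x hx
        rw [rel j x hx, ← map_sub]
        calc _ ≤ |c 0| * (ρ * ‖ψ j x‖ ^ (n + 1 + 1)) :=
              (A j x).le_of_opNorm_le_of_le (nA j x hx) (h1 _ (maps j hx))
          _ ≤ |c 0| * (ρ * (κ * ‖x‖) ^ (n + 1 + 1)) := by gcongr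
          _ = |c 0| * κ ^ (n + 1 + 1) * ρ * ‖x‖ ^ (n + 1 + 1) := by ring
          _ ≤ _ := by gcongr
      have hr := t1 _ R _ hg (hd _ _ (F (j + 1)) _ (sψ j) (sA j) (maps j) (dψ j) (dA j) (size _ ρ ρ0 h1))
      refine ⟨s0, fun x hx => ?_⟩
      rw [t3 _ _ R _ hR s0 hg near]
      refine (norm_sub_le_norm_sub_add_norm_sub _ _ _).trans ((add_le_add (near x hx) (hr x hx)).trans ?_)
      rw [← add_mul]
      refine mul_le_mul_of_nonneg_right ?_ (by positivity)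
      have e : K * ((6 * R / r) ^ (n + 1) * (M + ρ * r ^ (n + 1 + 1))) =
          K' * M + K * (6 * R) ^ (n + 1) * r * ρ := by
        rw [hK', div_pow]; field_simp; ring
      rw [e, pow_succ (1 / 2 : ℝ)]
      linarith [mul_le_mul_of_nonneg_right r2 ρ0]
  have h0 : ∀ x ∈ ball (0 : E) R, ‖F 0 x - PS.tay (n + 1) (F 0) x‖ ≤ 2 * K' * M * ‖x‖ ^ (n + 1 + 1) := by
    intro x hx
    have lim := (((tendsto_pow_atTop_nhds_zero_of_lt_one (r := (1 / 2 : ℝ)) (by norm_num)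
      (by norm_num)).const_mul |d (n + 1 + 1)|).const_add (2 * K' * M)).mul_const (‖x‖ ^ (n + 1 + 1))
    rw [mul_zero, add_zero] at lim
    refine ge_of_tendsto' lim fun J => ?_
    obtain ⟨T, hJ, sT, dT⟩ := good J
    refine ((main T sT dT T 0 (zero_add _)).2 x hx).trans ?_
    have := pow_le_pow_of_le_one (a := (1 / 2 : ℝ)) (by norm_num) (by norm_num) hJ
    gcongr
  have hP := hN (F 0) _ (size 0 _ (by positivity) h0)
  have e0 : PS.tay (n + 1) (F 0) 0 = F 0 0 := by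
    have := h0 0 (mem_ball_self hR)
    simp only [norm_zero, ne_eq, Nat.add_eq_zero_iff, one_ne_zero, and_false, not_false_eq_true, zero_pow,
      mul_zero, norm_le_zero_iff, sub_eq_zero] at this
    exact this.symm
  have c1 : 0 ≤ 2 * K' * R ^ n * M := by positivity
  refine ⟨fderiv ℝ (PS.tay (n + 1) (F 0)) 0, ?_, fun x hx => ?_⟩
  · have := hP 1 (by norm_num) 0 (by simpa using hR.le)
    rw [norm_iteratedFDeriv_one] at this
    linarith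
  · have a1 := (hT E V 1).1 _ R _ (t5 (F 0)).contDiffOn
      (fun y hy => hP 2 le_rfl y (mem_ball_zero_iff.1 hy).le) x hx
    have e1 : PS.tay 1 (PS.tay (n + 1) (F 0)) x = F 0 0 + fderiv ℝ (PS.tay (n + 1) (F 0)) 0 x := by
      rw [PS.tay, Finset.sum_range_succ, Finset.sum_range_one]
      simp [e0]
    have a2 : ‖x‖ ^ (n + 1 + 1) ≤ R ^ n * ‖x‖ ^ 2 := by
      rw [add_assoc, pow_add]
      gcongr
      exact (mem_ball_zero_iff.1 hx).le
    rw [sub_sub, ← e1]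
    refine (norm_sub_le_norm_sub_add_norm_sub _ _ _).trans ((add_le_add ((h0 x hx).trans
      (mul_le_mul_of_nonneg_left a2 (by positivity))) a1).trans_eq (by ring))

end Crest.Agent.N221.Ex
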