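import Crest.Agent.N221.Ex.Slope
import Crest.Agent.N221.Ex.LemU

/-! Row 221, block EXIT: uniform first order expansion along all graphs. -/

set_option autoImplicit false

open Set Metric
open scoped ContDiff

namespace Crest.Agent.N221.Ex

variable {E V : Type} [NormedAddCommGroup E] [NormedSpace ℝ E] [FiniteDimensional ℝ E]
  [NormedAddCommGroup V] [NormedSpace ℝ V] [FiniteDimensional ℝ V]

variable {At : Atl E} {S : Side At} {A : At.F → At.F → E × E → V →L[ℝ] V} {s : At.F → E × E → V}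

/-- expansion at the centre of a chart whose chain returns to `Gd` -/
theorem leaf_ctr (hA : At.Ok) (hS : S.Ok) (hs : Sec At A s) : ∃ C : ℝ, 0 < C ∧ ∀ f,
    (∀ J, ∃ j, J ≤ j ∧ S.nx^[j] f ∈ At.Gd) → ∃ L : E →L[ℝ] V, ‖L‖ ≤ C ∧
      ∀ q ∈ ball (0 : E) S.R, ‖s f (q, S.g f 0 q) - s f 0 - L q‖ ≤ C * ‖q‖ ^ 2 := by
  have r0 : (0 : E × E) ∈ ball (0 : E × E) At.r := mem_ball_self hA.r_pos
  have g0 : ∀ f, ((0 : E), S.g f 0 0) = 0 := fun f => Prod.ext rfl (hS.on f 0 r0)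
  have ug : UB (fun _ : At.F => ball (0 : E) S.R) fun f q => (q, S.g f 0 q) :=
    (UB.id (fun _ => isOpen_ball) (M := S.R) fun _ x hx => (mem_ball_zero_iff.1 hx).le).prod
      (hS.ub.mono (fun f => ⟨(f, 0), r0⟩) (fun _ => isOpen_ball) fun _ => ball_subset_ball hS.R_le)
  have uψ : UB (fun _ : At.F => ball (0 : E) S.R)
      fun f q => (At.T f (S.nx f) (q, S.g f 0 q)).1 :=
    ((hA.ub.mono (fun f => ⟨(f, S.nx f), hS.cl f⟩) (fun _ => hA.ub.op _) fun _ => subset_rfl).comp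
      ug fun f q hq => (hS.con f q hq).1).clm (ContinuousLinearMap.fst ℝ E E)
  have uA : UB (fun _ : At.F => ball (0 : E) S.R) fun f q => A f (S.nx f) (q, S.g f 0 q) :=
    (hs.ub.mono (fun f => ⟨(f, S.nx f), hS.cl f⟩) (fun _ => hA.ub.op _) fun _ => subset_rfl).comp
      ug fun f q hq => (hS.con f q hq).1
  have uG : UB (fun _ : At.Gd => ball (0 : E) S.R) fun f q => s f (q, S.g f 0 q) :=
    hs.gd.comp (ug.mono Subtype.val (fun _ => isOpen_ball) fun _ => subset_rfl)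
      fun f q hq => (hS.con f q hq).2.1
  have hT : ∀ f, ∀ q ∈ ball (0 : E) S.R, At.T f (S.nx f) (q, S.g f 0 q) =
      ((At.T f (S.nx f) (q, S.g f 0 q)).1, S.g (S.nx f) 0 (At.T f (S.nx f) (q, S.g f 0 q)).1) :=
    fun f q hq => Prod.ext rfl (by
      have := hS.nat f _ (hS.cl f) 0 (g0 f ▸ (hS.con f 0 (mem_ball_self hS.R_pos)).1) q
        (hS.con f q hq).1
      rwa [hS.zero] at this)
  obtain ⟨c1, -, h1⟩ := uψ.bds
  obtain ⟨c2, -, h2⟩ := uA.bds
  obtain ⟨d, -, h3⟩ := uG.bds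
  obtain ⟨M, M0, hM⟩ := hs.bdd
  obtain ⟨C, C0, hC⟩ := lemU E V hS.R_pos hS.κ_pos hS.κ_lt fun k => max (c1 k) (c2 k)
  refine ⟨C * M, mul_pos C0 M0, fun f hf => ?_⟩
  have := hC (fun j q => (At.T (S.nx^[j] f) (S.nx (S.nx^[j] f)) (q, S.g (S.nx^[j] f) 0 q)).1)
    (fun j q => A (S.nx^[j] f) (S.nx (S.nx^[j] f)) (q, S.g (S.nx^[j] f) 0 q))
    (fun j q => s (S.nx^[j] f) (q, S.g (S.nx^[j] f) 0 q)) M d (fun j => uψ.sm _) (fun j => uA.sm _)
    (fun j k x hx => (h1 k _ x hx).trans (le_max_left _ _))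
    (fun j k x hx => (h2 k _ x hx).trans (le_max_right _ _)) (fun j x hx => (hS.con _ x hx).2.2)
    (fun j x hx => by
      rw [Function.iterate_succ_apply', ← hT _ x hx]
      exact hs.rel _ _ (hS.cl _) _ (hS.con _ x hx).1)
    (fun j x hx => hM _ _ (hA.sub _ _ (hS.con _ x hx).1)) fun J => by
      obtain ⟨j, hj, hG⟩ := hf J
      exact ⟨j, hj, uG.sm ⟨_, hG⟩, fun k x hx => h3 k ⟨_, hG⟩ x hx⟩
  simpa only [Function.iterate_zero, id, g0] using this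

omit [FiniteDimensional ℝ E] in
/-- the model of the section along a graph through a point with a good chart -/
theorem Lf.model (hA : At.Ok) (hS : S.Ok) (hs : Sec At A s) (M C : ℝ) : ∃ c : ℝ, 1 ≤ c ∧
    ∀ f f' (δ : ℝ) (z : E × E) (v : V) (L : E →L[ℝ] V), At.cl f f' → z ∈ ball (0 : E × E) At.r →
      δ ≤ At.r → MapsTo (fun q => (q, S.g f z q)) (ball 0 δ) (At.dom f f') → ‖v‖ ≤ M → ‖L‖ ≤ C →
      ∀ x ∈ ball (0 : E) δ, ∃ L' : E →L[ℝ] V, ‖L'‖ ≤ c ∧ ∀ q ∈ ball (0 : E) δ,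
        ‖A f f' (q, S.g f z q) (v + L (At.T f f' (q, S.g f z q)).1) -
          A f f' (x, S.g f z x) (v + L (At.T f f' (x, S.g f z x)).1) - L' (q - x)‖ ≤
            c * ‖q - x‖ ^ 2 := by
  let I := {t : (At.P × At.Q × ℝ) × V × (E →L[ℝ] V) // t.1.2.1.1.1 = t.1.1.1.1 ∧ t.1.2.2 ≤ At.r ∧
    MapsTo (fun q => (q, S.g t.1.2.1.1.1 t.1.2.1.1.2 q)) (ball 0 t.1.2.2)
      (At.dom t.1.1.1.1 t.1.1.1.2) ∧ ‖t.2.1‖ ≤ M ∧ ‖t.2.2‖ ≤ C}
  have ho : ∀ i : I, IsOpen (ball (0 : E) i.1.1.2.2) := fun _ => isOpen_ball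
  have uw := (UB.id ho (M := At.r) fun i x hx => (mem_ball_zero_iff.1 hx).le.trans i.2.2.1).prod
    (hS.ub.mono (fun i : I => i.1.1.2.1) ho fun i => ball_subset_ball i.2.2.1)
  have uT := (hA.ub.mono (fun i : I => i.1.1.1) (fun _ => hA.ub.op _) fun _ => subset_rfl).comp uw
    fun i => i.2.2.2.1
  have uA := (hs.ub.mono (fun i : I => i.1.1.1) (fun _ => hA.ub.op _) fun _ => subset_rfl).comp uw
    fun i => i.2.2.2.1
  have uH := uA.clm_apply ((UB.const ho fun i : I => i.2.2.2.2.1).add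
    ((UB.const ho fun i : I => i.2.2.2.2.2).clm_apply (uT.clm (ContinuousLinearMap.fst ℝ E E))))
  obtain ⟨c, c1, hc⟩ := uH.taylor
  refine ⟨c, c1, fun f f' δ z v L h1 h2 h3 h4 h5 h6 x hx => ?_⟩
  obtain ⟨a1, a2⟩ := hc ⟨((⟨(f, f'), h1⟩, ⟨(f, z), h2⟩, δ), v, L), rfl, h3, h4, h5, h6⟩
  exact ⟨_, (a1 x hx).2, fun q hq => (a2 _ (convex_ball _ _) subset_rfl x hx q hq).2.2⟩

theorem leaf (hA : At.Ok) (hS : S.Ok) (hs : Sec At A s) : Leaf S s := by
  obtain ⟨c1, c11, h1⟩ := hS.ub.taylor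
  obtain ⟨c2, c21, h2⟩ := hA.ub.taylor
  obtain ⟨c3, c31, h3⟩ := hs.ub.taylor
  obtain ⟨C0, C00, h0⟩ := leaf_ctr hA hS hs
  obtain ⟨M, -, hM⟩ := hs.bdd
  obtain ⟨c4, c41, h4⟩ := Lf.model hA hS hs M C0
  have K0 : 0 ≤ c3 * (C0 * (c2 * c1) ^ 2) := by positivity
  refine ⟨c4 + c3 * (C0 * (c2 * c1) ^ 2), by linarith, fun f => ?_⟩
  obtain ⟨d0, d00, hd⟩ := hS.dense f
  have hr : ball (0 : E × E) d0 ⊆ ball 0 At.r := by
    obtain ⟨-, -, f', -, -, h, -⟩ := hd 0 (mem_ball_self d00) 1 one_pos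
    exact h.trans (hA.sub _ _)
  obtain ⟨δ, δ0, δ1, δ2, δ3⟩ : ∃ δ > 0, δ ≤ At.r ∧ (1 + 2 * c1) * δ ≤ d0 ∧
      c2 * c1 * (2 * δ) ≤ S.R := by
    have := hA.r_pos
    have := hS.R_pos
    refine ⟨min At.r (min (d0 / (1 + 2 * c1)) (S.R / (c2 * c1 * 2))), by positivity,
      min_le_left _ _, ?_, ?_⟩
    · exact (le_div_iff₀' (by positivity)).1 ((min_le_right _ _).trans (min_le_left _ _))
    · rw [← mul_assoc]
      exact (le_div_iff₀' (by positivity)).1 ((min_le_right _ _).trans (min_le_right _ _))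
  have δd : δ ≤ d0 := by nlinarith
  have b1 : ∀ z ∈ ball (0 : E × E) δ, z.1 ∈ ball (0 : E) δ := fun z hz =>
    mem_ball_zero_iff.2 ((norm_fst_le z).trans_lt (mem_ball_zero_iff.1 hz))
  have b2 : ∀ z ∈ ball (0 : E × E) δ, ∀ q ∈ ball (0 : E) δ, ‖q - z.1‖ < 2 * δ := fun z hz q hq => by
    have := norm_sub_le q z.1
    linarith [mem_ball_zero_iff.1 (b1 z hz), mem_ball_zero_iff.1 hq]
  have b0 : ∀ z ∈ ball (0 : E × E) δ, (z.1, S.g f z z.1) = z := fun z hz =>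
    Prod.ext rfl (hS.on f z (ball_subset_ball δ1 hz))
  have b3 : ∀ z ∈ ball (0 : E × E) δ, ∀ q ∈ ball (0 : E) δ,
      ‖(q, S.g f z q) - z‖ ≤ c1 * ‖q - z.1‖ := fun z hz q hq => by
    have := ((h1 ⟨(f, z), ball_subset_ball δ1 hz⟩).2 _ (convex_ball _ _) subset_rfl z.1
      (ball_subset_ball δ1 (b1 z hz)) q (ball_subset_ball δ1 hq)).1
    rw [hS.on f z (ball_subset_ball δ1 hz)] at this
    exact norm_prod_le_iff.2 ⟨le_mul_of_one_le_left (norm_nonneg _) c11, this⟩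
  have b4 : ∀ z ∈ ball (0 : E × E) δ, ∀ q ∈ ball (0 : E) δ,
      (q, S.g f z q) ∈ ball (0 : E × E) d0 := fun z hz q hq => by
    have a1 := norm_le_norm_add_norm_sub' (q, S.g f z q) z
    have a2 := mul_le_mul_of_nonneg_left (b2 z hz q hq).le (zero_le_one.trans c11)
    rw [mem_ball_zero_iff]
    linarith [b3 z hz q hq, mem_ball_zero_iff.1 hz]
  obtain ⟨L, L1, L2⟩ := slope_ext (Φ := fun z q => s f (q, S.g f z q))
    (C := c4 + c3 * (C0 * (c2 * c1) ^ 2)) δ0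
    ((hs.cont f).comp (continuousOn_snd.prodMk ((hS.cont f).mono
      (prod_mono (ball_subset_ball δ1) (ball_subset_ball δ1)))) fun p hp => hr (b4 _ hp.1 _ hp.2))
    fun z hz ε ε0 => by
      obtain ⟨z', -, f', a1, a2, a3, a4, a5⟩ := hd z (ball_subset_ball δd hz) (min ε (δ - ‖z‖))
        (lt_min ε0 (sub_pos.2 (mem_ball_zero_iff.1 hz)))
      have hz' : z' ∈ ball (0 : E × E) δ := by
        have := norm_le_norm_add_norm_sub' z' z
        rw [mem_ball_zero_iff]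
        linarith [a1.trans_le (min_le_right _ _)]
      have hzd : z' ∈ At.dom f f' := a3 (ball_subset_ball δd hz')
      obtain ⟨L0, l1, l2⟩ := h0 f' a5
      obtain ⟨L', l3, l4⟩ := h4 f f' δ z' (s f' 0) L0 a2 (ball_subset_ball δ1 hz') δ1
        (fun q hq => a3 (b4 z' hz' q hq)) (hM f' 0 (mem_ball_self hA.r_pos)) l1 z'.1 (b1 z' hz')
      refine ⟨z', hz', a1.trans_le (min_le_left _ _), L', by linarith, fun q hq => ?_⟩
      have hw := a3 (b4 z' hz' q hq)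
      have e1 := hS.nat f f' a2 z' hzd q hw
      have e2 := hs.rel f f' a2 _ hw
      have e3 := hs.rel f f' a2 _ hzd
      have n1 := ((h2 ⟨(f, f'), a2⟩).2 _ (convex_ball _ _) a3 z' (ball_subset_ball δd hz') _
        (b4 z' hz' q hq)).1
      have n2 := ((h3 ⟨(f, f'), a2⟩).1 _ hw).1
      have l5 := l4 q hq
      simp only [b0 z' hz', a4, sub_zero, Prod.fst_zero, map_zero, add_zero] at e1 e3 n1 n2 l5 ⊢
      set t := At.T f f' (q, S.g f z' q)
      have n3 : ‖t.1‖ ≤ c2 * c1 * ‖q - z'.1‖ := (norm_fst_le t).trans (n1.trans (by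
        rw [mul_assoc]
        exact mul_le_mul_of_nonneg_left (b3 z' hz' q hq) (by linarith)))
      have n4 := l2 t.1 (mem_ball_zero_iff.2 (n3.trans_lt ((mul_lt_mul_of_pos_left (b2 z' hz' q hq)
        (by positivity)).trans_le δ3)))
      rw [← e1] at n4
      have n5 : ‖A f f' (q, S.g f z' q) (s f' t - s f' 0 - L0 t.1)‖ ≤
          c3 * (C0 * (c2 * c1 * ‖q - z'.1‖) ^ 2) :=
        (ContinuousLinearMap.le_opNorm _ _).trans (mul_le_mul n2 (n4.trans (by gcongr))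
          (norm_nonneg _) (by linarith))
      rw [e2, e3]
      calc _ = ‖A f f' (q, S.g f z' q) (s f' t - s f' 0 - L0 t.1) +
            (A f f' (q, S.g f z' q) (s f' 0 + L0 t.1) - A f f' z' (s f' 0) - L' (q - z'.1))‖ := by
            simp only [map_sub, map_add]
            congr 1
            abel
        _ ≤ _ := (norm_add_le _ _).trans ((add_le_add n5 l5).trans_eq (by ring))
  exact ⟨δ, δ0, L, L1, fun z hz => ⟨(L2 z hz).1, fun q hq => by
    simpa only [b0 z hz] using (L2 z hz).2 q hq⟩⟩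

end Crest.Agent.N221.Ex
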