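import Crest.Agent.N221.Ex.C1
import Crest.Agent.N221.Ex.Leaf

/-! Row 221, block EXIT: the first jet of a section is a section; all sections are smooth. -/

set_option autoImplicit false

open Set Metric Filter Topology ContinuousLinearMap
open scoped ContDiff

namespace Crest.Agent.N221.Ex

namespace Jet

variable {X V : Type} [NormedAddCommGroup X] [NormedSpace ℝ X] [NormedAddCommGroup V]
  [NormedSpace ℝ V]

/-- the cocycle of first jets as a function of `(A z, DA z, DT z)` -/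
noncomputable def jm (p : (V →L[ℝ] V) × (X →L[ℝ] V →L[ℝ] V) × (X →L[ℝ] X)) :
    (V × (X →L[ℝ] V)) →L[ℝ] (V × (X →L[ℝ] V)) :=
  (p.1.comp (fst ℝ V _)).prod (((compL ℝ X V V p.1).comp ((compL ℝ X X V).flip p.2.2)).comp
    (snd ℝ V _) + p.2.1.flip.comp (fst ℝ V _))

lemma jm_apply (p : (V →L[ℝ] V) × (X →L[ℝ] V →L[ℝ] V) × (X →L[ℝ] X)) (w : V × (X →L[ℝ] V)) :
    jm p w = (p.1 w.1, p.1.comp (w.2.comp p.2.2) + p.2.1.flip w.1) := rfl

lemma jm_smooth [FiniteDimensional ℝ X] [FiniteDimensional ℝ V] :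
    ContDiff ℝ ∞ (jm (X := X) (V := V)) := by
  refine contDiff_clm_apply_iff.2 fun w => ?_
  simp only [jm_apply]
  refine ContDiff.prodMk (by fun_prop) (contDiff_clm_apply_iff.2 fun e => ?_)
  simp only [add_apply, comp_apply, flip_apply]
  fun_prop

variable {E : Type} [NormedAddCommGroup E] [NormedSpace ℝ E] {At : Atl E}
  {A : At.F → At.F → E × E → V →L[ℝ] V} {s : At.F → E × E → V}

/-- the chain rule for a section -/
lemma der (hA : At.Ok) (hs : Sec At A s) {f f' : At.F} (hc : At.cl f f') {z : E × E}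
    (hz : z ∈ At.dom f f') (h : ContDiffAt ℝ 1 (s f') (At.T f f' z)) :
    ContDiffAt ℝ 1 (s f) z ∧ fderiv ℝ (s f) z = (A f f' z).comp
      ((fderiv ℝ (s f') (At.T f f' z)).comp (fderiv ℝ (At.T f f') z)) +
        (fderiv ℝ (A f f') z).flip (s f' (At.T f f' z)) := by
  have e : s f =ᶠ[𝓝 z] fun y => A f f' y (s f' (At.T f f' y)) :=
    eventually_of_mem ((hA.ub.op ⟨(f, f'), hc⟩).mem_nhds hz) (hs.rel f f' hc)
  have h1 : ContDiffAt ℝ 1 (A f f') z :=
    (hs.ub.at (i := ⟨(f, f'), hc⟩) hz).of_le (by exact_mod_cast le_top)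
  have h2 : ContDiffAt ℝ 1 (At.T f f') z :=
    (hA.ub.at (i := ⟨(f, f'), hc⟩) hz).of_le (by exact_mod_cast le_top)
  have h3 := h.comp z h2
  refine ⟨(h1.clm_apply h3).congr_of_eventuallyEq e, ?_⟩
  rw [e.fderiv_eq, ← fderiv_comp z (h.differentiableAt one_ne_zero) (h2.differentiableAt one_ne_zero)]
  exact fderiv_clm_apply (h1.differentiableAt one_ne_zero) (h3.differentiableAt one_ne_zero)

end Jet

variable {E : Type} [NormedAddCommGroup E] [NormedSpace ℝ E] [FiniteDimensional ℝ E]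
  {At : Atl E} {S U : Side At}

theorem Sec.jet (hA : At.Ok) (hS : S.Ok) (hU : U.Ok) (hT : Trans S U) {V : Type}
    [NormedAddCommGroup V] [NormedSpace ℝ V] [FiniteDimensional ℝ V]
    {A : At.F → At.F → E × E → V →L[ℝ] V} {s : At.F → E × E → V} (hs : Sec At A s) :
    (∀ f, DifferentiableOn ℝ (s f) (ball 0 At.r)) ∧
    ∃ A' : At.F → At.F → E × E → (V × (E × E →L[ℝ] V)) →L[ℝ] (V × (E × E →L[ℝ] V)),
      Sec At A' fun f z => (s f z, fderiv ℝ (s f) z) := by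
  obtain ⟨C, hC, h⟩ := c1_of_leaf hA hS hU hT (leaf hA hS hs) (leaf hA hU hs)
  obtain ⟨M, hM, hb⟩ := hs.bdd
  obtain ⟨a, ha, h1⟩ := hs.ub.bd 0
  obtain ⟨b, hb0, h2⟩ := hs.ub.bd 1
  obtain ⟨c, hc, h3⟩ := hA.ub.bd 1
  simp only [norm_iteratedFDeriv_zero, norm_iteratedFDeriv_one] at h1 h2 h3
  have key : ∀ f, ∀ z ∈ ball (0 : E × E) At.r, ContDiffAt ℝ 1 (s f) z ∧
      ‖fderiv ℝ (s f) z‖ ≤ a * (C * c) + b * M := fun f z hz => by
    obtain ⟨f', hf, hz', e⟩ := hA.ctr f z hz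
    obtain ⟨δ, hδ, h4, h5⟩ := h f'
    obtain ⟨h6, h7⟩ := Jet.der hA hs hf hz' (e ▸ h4.contDiffAt (ball_mem_nhds 0 hδ))
    refine ⟨h6, ?_⟩
    rw [h7, e]
    refine norm_add_le_of_le ((opNorm_comp_le _ _).trans (mul_le_mul (h1 ⟨(f, f'), hf⟩ z hz')
      ((opNorm_comp_le _ _).trans (mul_le_mul h5 (h3 ⟨(f, f'), hf⟩ z hz') (norm_nonneg _) hC.le))
      (norm_nonneg _) ha.le)) ((le_opNorm _ _).trans ?_)
    rw [opNorm_flip]
    exact mul_le_mul (h2 ⟨(f, f'), hf⟩ z hz') (hb f' 0 (mem_ball_self hA.r_pos)) (norm_nonneg _)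
      hb0.le
  have h4 : ∀ f, ContDiffOn ℝ 1 (s f) (ball 0 At.r) := fun f z hz =>
    (key f z hz).1.contDiffWithinAt
  refine ⟨fun f => (h4 f).differentiableOn one_ne_zero,
    fun f f' z => Jet.jm (A f f' z, fderiv ℝ (A f f') z, fderiv ℝ (At.T f f') z),
    (hs.ub.prod (hs.ub.fderiv.prod hA.ub.fderiv)).smooth Jet.jm_smooth,
    fun f => (hs.cont f).prodMk ((h4 f).continuousOn_fderiv_of_isOpen isOpen_ball le_rfl),
    ⟨max M (a * (C * c) + b * M), lt_max_of_lt_left hM, fun f z hz =>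
      max_le_max (hb f z hz) (key f z hz).2⟩, fun f f' hf z hz => ?_, hs.gd.prod hs.gd.fderiv⟩
  rw [Jet.jm_apply]
  exact Prod.ext (hs.rel f f' hf z hz) (Jet.der hA hs hf hz (key f' _ (hA.maps f f' hz)).1).2

theorem Sec.smooth (hA : At.Ok) (hS : S.Ok) (hU : U.Ok) (hT : Trans S U) {V : Type}
    [NormedAddCommGroup V] [NormedSpace ℝ V] [FiniteDimensional ℝ V]
    {A : At.F → At.F → E × E → V →L[ℝ] V} {s : At.F → E × E → V} (hs : Sec At A s) (f : At.F) :
    ContDiffOn ℝ ∞ (s f) (ball 0 At.r) := by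
  refine contDiffOn_infty.2 fun k => ?_
  induction k generalizing V with
  | zero => exact contDiffOn_zero.2 (hs.cont f)
  | succ k ih =>
    obtain ⟨h1, A', h2⟩ := hs.jet hA hS hU hT
    rw [Nat.cast_succ, contDiffOn_succ_iff_fderiv_of_isOpen isOpen_ball]
    exact ⟨h1 f, by simp, (ih h2).snd⟩

end Crest.Agent.N221.Ex
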