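import Crest.Agent.N221.Ex.Pj
import Crest.Agent.N221.Ex.Main
import Crest.Agent.N221.Ch.Exit
import Crest.Agent.N221.Dy.Sp
import Crest.Agent.N221.A1.Defs

/-! Row 221, block EXIT (helper71): the instance.  If the splitting is smooth on an open set of a
chart then `U` is smooth. -/

set_option autoImplicit false
set_option linter.unusedSectionVars false
set_option linter.unusedVariables false

open Set Filter Topology Metric
open scoped ContDiff RealInnerProductSpace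
open Crest.GeometryTopology.Submanifold
open Crest.Agent.R241.DDefs Crest.Agent.R241.D2
open Crest.Agent.R208.J Crest.Agent.R208.L
open Crest.Agent.N221.Ex

noncomputable section

namespace Crest.Agent.N221

/-- from `JB` to `UB` -/
lemma ub_of_jb {ι P X Y : Type} [NormedAddCommGroup X] [NormedSpace ℝ X] [NormedAddCommGroup Y]
    [NormedSpace ℝ Y] {F : P → X → Y} {K : Set (P × X)} (h : JB F K) (e : ι → P) {U : ι → Set X}
    (ho : ∀ i, IsOpen (U i)) (hs : ∀ i, ∀ x ∈ U i, ContDiffAt ℝ ∞ (F (e i)) x)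
    (hK : ∀ i, ∀ x ∈ U i, (e i, x) ∈ K) : UB U fun i => F (e i) :=
  ⟨ho, fun i x hx => (hs i x hx).contDiffWithinAt, fun k => let ⟨B, hB⟩ := h k
    ⟨max B 1, lt_max_of_lt_right one_pos, fun i x hx => (hB _ (hK i x hx)).trans (le_max_left _ _)⟩⟩

namespace Cov

variable {n N m : ℕ} {a : ℝ} {S : Set (Euc N)} {G : Geo n N (-(a ^ 2)) S} (C : Cov G)

/-- the atlas -/
def xA (f₀ : FF n N m) (T ε ρ : ℝ) : Atl (Euc m) where
  F := {f : FF n N m // C.Frm f}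
  r := C.rr m
  ρ := ρ
  cl f f' := C.dd f.1.1 f'.1.1 ≤ T + 1
  dom f f' := C.dm f.1 f'.1
  T f f' := C.Tf f.1 f'.1
  Gd := {f | ∃ k t, C.Deck k ∧ |t| ≤ T ∧ C.dd f₀.1 (C.gd (k f.1.1) f.1.2.1 t) ≤ ε ∧
    ‖C.vel (k f.1.1) f.1.2.1 t - f₀.2.1‖ ≤ ε}

/-- the stable side -/
def xS (f₀ : FF n N m) (T ε ρ R : ℝ) : Side (C.xA f₀ T ε ρ) where
  g f z := C.pq f.1 (C.ge f.1 z).1
  nx f := ⟨C.fw f.1 T, f.2.fw C T⟩
  R := R
  κ := 1 / 2

/-- the unstable side -/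
def xU (f₀ : FF n N m) (T ε ρ R : ℝ) : Side (C.xA f₀ T ε ρ) where
  g f z q := -C.pq f.1 (C.ge f.1 z).2 q
  nx f := ⟨C.fw f.1 (-T), f.2.fw C (-T)⟩
  R := R
  κ := 1 / 2

variable (H : Hyp n N a S) (hm : m + 1 = n) {f₀ : FF n N m} {T ε ρ R : ℝ}
include H hm

lemma x_le_rr {z : ZZ m} (hz : z ∈ ball (0 : ZZ m) (C.rr m)) : ‖z‖ ≤ 2 * C.rr m := by
  linarith [mem_ball_zero_iff.1 hz, C.rr_pos H hm]

lemma xA_ok (hT : 0 ≤ T) (hρ : ρ ≤ C.rr m) : (C.xA f₀ T ε ρ).Ok where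
  r_pos := C.rr_pos H hm
  ρ_le := hρ
  ub := ub_of_jb (C.jb_Tf H hm (T + 1)) (fun p : (C.xA f₀ T ε ρ).P => (p.1.1.1, p.1.2.1))
    (fun p => C.isOpen_dm H hm p.1.1.2 p.1.2.2)
    (fun p _ hz => C.contDiffAt_Tf H hm p.1.1.2 p.1.2.2 hz) fun p _ hz => ⟨p.1.1.2, p.1.2.2, p.2, hz⟩
  sub _ _ _ hz := mem_ball_zero_iff.2 hz.1
  maps _ f' _ hz := mem_ball_zero_iff.2 (C.Tf_spec H hm f'.2 hz).1
  ctr f z hz := by
    obtain ⟨f', hf', e1, -, -, h1, h2, -⟩ := C.centre H hm f.2 (mem_ball_zero_iff.1 hz)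
    refine ⟨⟨f', hf'⟩, ?_, h1, h2⟩
    change C.dd f.1.1 f'.1 ≤ T + 1
    rw [e1, C.dd_hy f.2]
    linarith [norm_fst_le z, C.x_le_rr H hm hz, (C.rad H hm).le]

/-- a dense set of chart points whose chains return to `Gd` in both directions -/
lemma x_dense (hf₀ : C.Frm f₀) (hT : 0 < T) (hε : 0 < ε) (σ : ℝ) (hσ : σ = 1 ∨ σ = -1)
    (nx : (C.xA f₀ T ε ρ).F → (C.xA f₀ T ε ρ).F) (hnx : ∀ f, (nx f).1 = C.fw f.1 (σ * T))
    (f : (C.xA f₀ T ε ρ).F) :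
    ∃ δ > 0, ∀ z ∈ ball (0 : ZZ m) δ, ∀ e > 0, ∃ z' ∈ ball (0 : ZZ m) δ, ∃ f',
      ‖z' - z‖ < e ∧ (C.xA f₀ T ε ρ).cl f f' ∧ ball 0 δ ⊆ (C.xA f₀ T ε ρ).dom f f' ∧
      (C.xA f₀ T ε ρ).T f f' z' = 0 ∧ ∀ J, ∃ j, J ≤ j ∧ nx^[j] f' ∈ (C.xA f₀ T ε ρ).Gd := by
  have ha := H.a_pos
  have r0 := C.rr_pos H hm
  obtain ⟨x₀, v₀, h0, htr⟩ := C.exists_trans H trT
  obtain ⟨K, hK, hnear⟩ := C.uv_near H hm
  obtain ⟨K1, δ1, -, δ0, hstep⟩ := C.step H hm 0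
  refine ⟨min (C.rr m) (δ1 / (K + 1)), by positivity, fun z hz e he => ?_⟩
  have zr : ‖z‖ < C.rr m := (mem_ball_zero_iff.1 hz).trans_le (min_le_left _ _)
  have zD := C.Dm_of_lt H hm f.2 zr
  have hv := C.un_uv H f.2 zD
  obtain ⟨η, hη, hV⟩ := Metric.mem_nhdsWithin_iff.1 (C.ge_mem_nhds H hm f.2 zD
    (inter_mem (isOpen_ball.mem_nhds hz) (ball_mem_nhds z he)))
  obtain ⟨d1, p1, c1⟩ := C.dyn_ep_near H hv hη
  obtain ⟨d2, p2, c2⟩ := C.dyn_ep_near H (hv.neg C) hη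
  obtain ⟨g, t, hg, -, b1, b2⟩ := (htr _ _ hv (min d1 d2) (lt_min p1 p2) 0).1
  have hu : C.Un (g (C.gd x₀ v₀ t)) (C.vel x₀ v₀ t) := (hg.un C).2 (h0.vel C t)
  have b3 : ‖g (C.gd x₀ v₀ t) - C.hy f.1 z.1‖ < min d1 d2 :=
    (C.norm_sub_le_dd ha.le _ _).trans_lt (by rwa [C.dd_comm])
  rw [norm_sub_rev] at b2
  rw [lt_min_iff] at b2 b3
  obtain ⟨z', ⟨m1, m2⟩, e1⟩ := hV (a := (C.ep _ (C.vel x₀ v₀ t), C.ep _ (-C.vel x₀ v₀ t)))
    ⟨mem_ball_iff_norm.2 (max_lt (c1 _ _ hu b3.1 b2.1)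
      (c2 _ _ (hu.neg C) b3.2 (by rw [← neg_sub', norm_neg]; exact b2.2))), C.ep_GG ha hu⟩
  have zr' : ‖z'‖ < C.rr m := (mem_ball_zero_iff.1 m1).trans_le (min_le_left _ _)
  have zd' : ‖z'‖ < δ1 / (K + 1) := (mem_ball_zero_iff.1 m1).trans_le (min_le_right _ _)
  obtain ⟨f', hf', e2, e3, -, h1, h2, -⟩ := C.centre H hm f.2 zr'
  have d0 : C.dd f.1.1 f'.1 = ‖z'.1‖ := by rw [e2, C.dd_hy f.2]
  have k0 : δ1 / (K + 1) ≤ δ1 := div_le_self δ0.le (by linarith)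
  refine ⟨z', m1, ⟨f', hf'⟩, mem_ball_iff_norm.1 m2, ?_, fun w hw => ?_, h2, fun J => ?_⟩
  · change C.dd f.1.1 f'.1 ≤ T + 1
    linarith [norm_fst_le z', (C.rad H hm).le]
  · refine (hstep f.1 f' w 0 δ1 f.2 hf' (by simp) le_rfl
      (((mem_ball_zero_iff.1 hw).trans_le (min_le_right _ _)).le.trans k0) ?_ ?_).1
    · rw [C.gd_zero, C.dd_comm, d0]; linarith [norm_fst_le z']
    · rw [C.vel_zero, e3, norm_sub_rev]
      refine (hnear f.1 z' f.2 (by linarith)).trans ?_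
      rw [lt_div_iff₀ (by linarith)] at zd'
      nlinarith [norm_nonneg z']
  obtain ⟨s1, s2⟩ := C.same_geod H hu (C.un_uv H f.2 (C.Dm_of_lt H hm f.2 zr'))
    (congrArg Prod.fst e1).symm (congrArg Prod.snd e1).symm
  generalize C.b _ _ - C.b _ _ = s at s1 s2
  rw [← e2, hg.gd_eq C (h0.vel C t).mem, C.gd_add h0.mem] at s1
  rw [← e3, hg.vel_eq C, C.vel_add h0.mem] at s2
  have it : ∀ j : ℕ, (nx^[j] ⟨f', hf'⟩).1 = C.fw f' (j * (σ * T)) := fun j => by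
    induction j with
    | zero => rw [Nat.cast_zero, zero_mul, C.fw_zero]; rfl
    | succ j ih =>
      refine (congrArg Subtype.val (Function.iterate_succ_apply' nx j _)).trans ?_
      rw [hnx, ih, C.fw_add hf']; push_cast; ring_nf
  obtain ⟨k, t', hk, a1, a2, a3⟩ : ∃ k t', C.Deck k ∧ J * T ≤ σ * (t' - (t + s)) ∧
      C.dd f₀.1 (k (C.gd x₀ v₀ t')) < ε ∧ ‖f₀.2.1 - C.vel x₀ v₀ t'‖ < ε := by
    rcases hσ with rfl | rfl
    · obtain ⟨k, t', hk, a1, a2⟩ := (htr _ _ hf₀.un ε hε (J * T + (t + s))).1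
      exact ⟨k, t', hk, by linarith, a2⟩
    · obtain ⟨k, t', hk, a1, a2⟩ := (htr _ _ hf₀.un ε hε (J * T - (t + s))).2
      exact ⟨k, t', hk, by linarith, a2⟩
  obtain ⟨g', hg', i1, -⟩ := hg.inv C
  set u := σ * (t' - (t + s)) with hu'
  have u0 : 0 ≤ u / T := div_nonneg (le_trans (by positivity) a1) hT.le
  have j1 := Nat.floor_le u0
  have j2 := Nat.lt_floor_add_one (u / T)
  refine ⟨⌊u / T⌋₊, Nat.le_floor ((le_div_iff₀ hT).2 a1), k ∘ g',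
    σ * (u - ⌊u / T⌋₊ * T), hk.comp C hg', ?_, ?_⟩
  · rw [le_div_iff₀ hT] at j1
    rw [div_lt_iff₀ hT] at j2
    rw [abs_mul, show |σ| = 1 by rcases hσ with rfl | rfl <;> simp, one_mul, abs_le]
    constructor <;> linarith
  rw [it]
  have σ2 : σ * σ = 1 := by rcases hσ with rfl | rfl <;> norm_num
  have et : t + s + ⌊u / T⌋₊ * (σ * T) + σ * (u - ⌊u / T⌋₊ * T) = t' := by
    have : σ * u = t' - (t + s) := by rw [hu', ← mul_assoc, σ2, one_mul]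
    rw [mul_sub, this]; ring
  have w1 : (C.fw f' (⌊u / T⌋₊ * (σ * T))).1 = g (C.gd x₀ v₀ (t + s + ⌊u / T⌋₊ * (σ * T))) := by
    change C.gd f'.1 f'.2.1 _ = _
    rw [s1, s2, hg.gd_eq C (h0.vel C _).mem, C.gd_add h0.mem]
  have w2 : (C.fw f' (⌊u / T⌋₊ * (σ * T))).2.1 = C.vel x₀ v₀ (t + s + ⌊u / T⌋₊ * (σ * T)) := by
    change C.vel f'.1 f'.2.1 _ = _
    rw [s1, s2, hg.vel_eq C, C.vel_add h0.mem]
  rw [w1, w2, Function.comp_apply, i1, hk.gd_eq C (h0.vel C _).mem, hk.vel_eq C, C.gd_add h0.mem,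
    C.vel_add h0.mem, et, norm_sub_rev]
  exact ⟨a2.le, a3.le⟩

lemma x_ub_pq (e : ZZ m → (C.xA f₀ T ε ρ).F → Euc n)
    (he : ∀ f, ∀ z ∈ ball (0 : ZZ m) (C.rr m), ‖e z f‖ = 1) :
    UB (fun _ : (C.xA f₀ T ε ρ).Q => ball (0 : Euc m) (C.rr m))
      fun p => C.pq p.1.1.1 (e p.1.2 p.1.1) :=
  ub_of_jb (C.jb_pq H (C.rr m)) (fun p : (C.xA f₀ T ε ρ).Q => (p.1.1.1, e p.1.2 p.1.1))
    (fun _ => isOpen_ball) (fun p _ _ => (C.contDiff_pq H (bas_ne0 (he _ _ p.2)) _).contDiffAt)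
    fun p _ hq => ⟨p.1.1.2, he _ _ p.2, (mem_ball_zero_iff.1 hq).le⟩

lemma x_cont_pq {f : FF n N m} (hf : C.Frm f) {e : Euc n × Euc n → Euc n} (he : Continuous e)
    (h1 : ∀ p ∈ GG n, ‖e p‖ = 1) :
    ContinuousOn (fun p : ZZ m × Euc m => C.pq f (e (C.ge f p.1)) p.2)
      (ball 0 (C.rr m) ×ˢ ball 0 (C.rr m)) :=
  (C.jc_pq H).continuousOn.comp (f := fun p : ZZ m × Euc m => ((f, e (C.ge f p.1)), p.2))
    ((continuousOn_const.prodMk (he.comp_continuousOn ((C.continuousOn_ge H).comp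
      (f := fun p : ZZ m × Euc m => (f, p.1)) (by fun_prop) fun _ hp =>
        ⟨hf, C.Dm_of_le H hm hf (C.x_le_rr H hm hp.1)⟩))).prodMk continuousOn_snd)
    fun _ hp => h1 _ (C.ge_GG H hf (C.Dm_of_le H hm hf (C.x_le_rr H hm hp.1)))

/-- the chain along the central stable plaques -/
lemma x_chain : ∃ T : ℝ, 0 < T ∧ ∀ ρ > 0, ∃ R > 0, R ≤ C.rr m ∧ ∀ f f' : FF n N m, C.Frm f →
    C.Frm f' → C.Ov f f' T → ∀ q ∈ ball (0 : Euc m) R, C.gs f (C.ge f 0).1 q ∈ C.dm f f' ∧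
      C.gs f (C.ge f 0).1 q ∈ ball (0 : ZZ m) ρ ∧
      ‖(C.Tf f f' (C.gs f (C.ge f 0).1 q)).1‖ ≤ 1 / 2 * ‖q‖ := by
  obtain ⟨R, T, R0, R1, T0, h⟩ := C.chain_lf H hm
  obtain ⟨b, c, -, h⟩ := h T
  obtain ⟨K, hK, hl⟩ := C.pq_lip H hm
  refine ⟨T, T0, fun ρ hρ => ⟨min R (ρ / (K + 1)), by positivity, (min_le_left _ _).trans R1,
    fun f f' hf hf' ho q hq => ?_⟩⟩
  have q1 := ball_subset_ball (min_le_left _ _) hq
  have q2 := (mem_ball_zero_iff.1 hq).trans_le (min_le_right _ _)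
  obtain ⟨h1, -, h2, -⟩ := (h f f' T hf hf' ho le_rfl le_rfl).1 q q1
  refine ⟨h1, mem_ball_zero_iff.2 ?_, h2⟩
  have z0 := C.Dm_of_lt H hm hf (z := 0) (by simpa using C.rr_pos H hm)
  have h3 := (hl f _ q 0 hf (C.ge_GG H hf z0).1
    (by linarith [mem_ball_zero_iff.1 q1, (C.rad H hm).le]) (by simp)).2
  have h4 : C.pq f (C.ge f 0).1 0 = 0 := congrArg Prod.snd (C.eq_gs H hf z0)
  rw [h4, sub_zero, sub_zero] at h3
  rw [lt_div_iff₀ (by linarith)] at q2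
  rw [gs, Prod.norm_def]
  exact max_lt (by dsimp only; nlinarith [norm_nonneg q]) (by dsimp only; nlinarith [norm_nonneg q])

variable (hf₀ : C.Frm f₀) (hT : 0 < T) (hε : 0 < ε) (R0 : 0 < R) (R1 : R ≤ C.rr m)
  (hc : ∀ f f' : FF n N m, C.Frm f → C.Frm f' → C.Ov f f' T → ∀ q ∈ ball (0 : Euc m) R,
    C.gs f (C.ge f 0).1 q ∈ C.dm f f' ∧ C.gs f (C.ge f 0).1 q ∈ ball (0 : ZZ m) ρ ∧
      ‖(C.Tf f f' (C.gs f (C.ge f 0).1 q)).1‖ ≤ 1 / 2 * ‖q‖)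
include hf₀ hT hε R0 R1 hc

lemma xS_ok : (C.xS f₀ T ε ρ R).Ok where
  R_pos := R0
  R_le := R1
  κ_pos := one_half_pos
  κ_lt := one_half_lt_one
  ub := C.x_ub_pq H hm (fun z f => (C.ge f.1 z).1) fun f _ hz =>
    (C.ge_GG H f.2 (C.Dm_of_le H hm f.2 (C.x_le_rr H hm hz))).1
  cont f := C.x_cont_pq H hm f.2 continuous_fst fun _ h => h.1
  on f _ hz := congrArg Prod.snd (C.eq_gs H f.2 (C.Dm_of_le H hm f.2 (C.x_le_rr H hm hz)))
  nat f f' _ z hz q hq := by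
    have h := (C.Tf_gs H hm f.2 f'.2 ((C.rad H hm).front _ f.2 z
      (C.x_le_rr H hm (mem_ball_zero_iff.2 hz.1))) hq).1
    change (C.Tf _ _ (C.gs _ _ q)).2 = C.pq f'.1 (C.ge f'.1 (C.Tf _ _ z)).1 (C.Tf _ _ (C.gs _ _ q)).1
    rw [(C.Tf_spec H hm f'.2 hz).2, h]; rfl
  cl f := by
    change C.dd f.1.1 (C.fw f.1 T).1 ≤ T + 1
    rw [(C.ov_fw f.1 T).dd C f.2, abs_of_pos hT]; linarith
  zero f := (C.Tf_zero H hm f.2 (f.2.fw C T) (C.ov_fw f.1 T)).2.1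
  con f q hq := hc _ _ f.2 (f.2.fw C T) (C.ov_fw f.1 T) q hq
  dense f := C.x_dense H hm hf₀ hT hε 1 (Or.inl rfl) _ (fun _ => by rw [one_mul]; rfl) f

lemma xU_ok : (C.xU f₀ T ε ρ R).Ok where
  R_pos := R0
  R_le := R1
  κ_pos := one_half_pos
  κ_lt := one_half_lt_one
  ub := (C.x_ub_pq H hm (fun z f => (C.ge f.1 z).2) fun f _ hz =>
    (C.ge_GG H f.2 (C.Dm_of_le H hm f.2 (C.x_le_rr H hm hz))).2.1).clm (-ContinuousLinearMap.id ℝ _)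
  cont f := (C.x_cont_pq H hm f.2 continuous_snd fun _ h => h.2.1).neg
  on f _ hz := congrArg Prod.snd (C.eq_gu H f.2 (C.Dm_of_le H hm f.2 (C.x_le_rr H hm hz)))
  nat f f' _ z hz q hq := by
    have h := (C.Tf_gu H hm f.2 f'.2 (C.back H hm f.2
      (C.x_le_rr H hm (mem_ball_zero_iff.2 hz.1))) hq).1
    change (C.Tf _ _ (C.gu _ _ q)).2 = -C.pq f'.1 (C.ge f'.1 (C.Tf _ _ z)).2 (C.Tf _ _ (C.gu _ _ q)).1
    rw [(C.Tf_spec H hm f'.2 hz).2, h]; rfl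
  cl f := by
    change C.dd f.1.1 (C.fw f.1 (-T)).1 ≤ T + 1
    rw [(C.ov_fw f.1 (-T)).dd C f.2, abs_neg, abs_of_pos hT]; linarith
  zero f := (C.Tf_zero H hm f.2 (f.2.fw C _) (C.ov_fw f.1 _)).2.1
  con f q hq := by
    have hf' := f.2.fw C (-T)
    have ho := (C.ov_fw f.1 (-T)).fp C f.2
    rw [neg_neg] at ho
    obtain ⟨h1, h2, h3⟩ := hc _ _ (f.2.fp C) (hf'.fp C) ho q hq
    have e0 : (C.ge (fp f.1) 0).1 = (C.ge f.1 0).2 := by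
      have := C.ge_fp f.1 0
      rw [show flp (0 : ZZ m) = 0 by simp [flp]] at this
      rw [this]; rfl
    rw [e0, C.gs_fp] at h1 h2 h3
    have h4 := C.dm_fp.1 h1
    rw [(C.Tf_fp H hm f.2 hf' h4).1] at h3
    rw [mem_ball_zero_iff, norm_flp] at h2
    exact ⟨h4, mem_ball_zero_iff.2 h2, h3⟩
  dense f := C.x_dense H hm hf₀ hT hε (-1) (Or.inr rfl) _ (fun _ => by rw [neg_one_mul]; rfl) f

omit hf₀ hT hε R0 R1 hc

lemma x_trans : Trans (C.xS f₀ T ε ρ R) (C.xU f₀ T ε ρ R) where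
  low := ⟨a / 16, by have := H.a_pos; positivity, fun f z hz e => by
    have := C.Su_Ss_low H hm f.2 (C.x_le_rr H hm hz) e
    have e1 : (C.xU f₀ T ε ρ R).sl f z = C.Su f.1 z := fderiv_fun_neg
    rw [e1]; exact this⟩
  corner f e he := by
    obtain ⟨K, δ, hK, hδ, h⟩ := C.prod_box' H hm
    have r0 := C.rr_pos H hm
    refine ⟨min δ (min e (C.rr m) / (K + 1)), by positivity, fun z hz z' hz' => ?_⟩
    obtain ⟨w, w1, w2⟩ := h f.1 z' z _ f.2 (min_le_left _ _) (mem_ball_zero_iff.1 hz').le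
      (mem_ball_zero_iff.1 hz).le
    have w3 : ‖w‖ < min e (C.rr m) := by
      have h1 : min δ (min e (C.rr m) / (K + 1)) * (K + 1) ≤ min e (C.rr m) :=
        (le_div_iff₀ (by linarith)).1 (min_le_right _ _)
      have h2 : 0 < min δ (min e (C.rr m) / (K + 1)) := by positivity
      nlinarith
    rw [lt_min_iff] at w3
    have wD := C.Dm_of_lt H hm f.2 w3.2
    have e1 := congrArg Prod.snd (C.eq_gs H f.2 wD)
    have e2 := congrArg Prod.snd (C.eq_gu H f.2 wD)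
    rw [w2] at e1 e2
    exact ⟨w.1, mem_ball_zero_iff.2 ((norm_fst_le w).trans_lt w3.1), e2.trans e1.symm⟩

/-- the conjugation cocycle -/
def xC (f f' : FF n N m) (z : ZZ m) : (ZZ m →L[ℝ] ZZ m) →L[ℝ] (ZZ m →L[ℝ] ZZ m) :=
  (ContinuousLinearMap.compL ℝ _ _ _ (fderiv ℝ (C.Tf f' f) (C.Tf f f' z))).comp
    ((ContinuousLinearMap.compL ℝ _ _ _).flip (fderiv ℝ (C.Tf f f') z))

lemma xC_rel {f f' : FF n N m} (hf : C.Frm f) (hf' : C.Frm f') {z : ZZ m} (hz : z ∈ C.dm f f') :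
    C.pj f z = C.xC f f' z (C.pj f' (C.Tf f f' z)) := by
  refine ContinuousLinearMap.ext fun x => ?_
  have := congrArg (fun A : ZZ m →L[ℝ] ZZ m => A x) (C.pj_Tf H hm hf hf' hz)
  change _ = fderiv ℝ (C.Tf f' f) _ (C.pj f' _ (fderiv ℝ (C.Tf f f') z x))
  simp only [ContinuousLinearMap.comp_apply] at this
  rw [← this, C.fderiv_Tf_symm H hm hf hf' hz]

lemma xC_ub (hT : 0 ≤ T) : UB (fun p : (C.xA f₀ T ε 0).P => C.dm p.1.1.1 p.1.2.1)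
    fun p => C.xC p.1.1.1 p.1.2.1 := by
  have h := (C.xA_ok H hm (f₀ := f₀) (ε := ε) hT (C.rr_pos H hm).le).ub
  have h' := h.fderiv.mono (fun p : (C.xA f₀ T ε 0).P => ⟨(p.1.2, p.1.1), by
    have := p.2
    change C.dd _ _ ≤ _ at this ⊢
    rwa [C.dd_comm]⟩) (fun p => h.op _) fun _ => subset_rfl
  exact ((h'.comp h fun p z hz => (C.Tf_symm H hm p.1.1.2 p.1.2.2 hz).1).clm _).clm_comp
    (h.fderiv.clm _)

/-- EXIT -/
theorem exitT {f : FF n N m} (hf : C.Frm f) {z : ZZ m} (hz : ‖z‖ < C.rr m)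
    (h : ∀ᶠ w in 𝓝 z, ContDiffAt ℝ ∞ (C.pj f) w) : Sm G := by
  have ha := H.a_pos
  have r0 := C.rr_pos H hm
  obtain ⟨f₀, hf₀, e1, -, -, h1, h2, -⟩ := C.centre H hm hf hz
  obtain ⟨T, hT, hch⟩ := C.x_chain H hm
  have hub := fun f₀ => C.xC_ub H hm (f₀ := f₀) (ε := 0) hT.le
  -- `pj f₀` is smooth on a ball
  obtain ⟨h3, h4, -⟩ := C.Tf_symm H hm hf hf₀ h1
  rw [h2] at h3 h4
  have hcl : C.dd f₀.1 f.1 ≤ T + 1 := by
    rw [C.dd_comm, e1, C.dd_hy hf]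
    linarith [norm_fst_le z, (C.rad H hm).le]
  have ev : ∀ᶠ w in 𝓝 (0 : ZZ m), ContDiffAt ℝ ∞ (C.pj f₀) w := by
    have o := C.isOpen_dm H hm hf₀ hf
    filter_upwards [o.mem_nhds h3, (C.contDiffAt_Tf H hm hf₀ hf h3).continuousAt.eventually
      (h4.symm ▸ h)] with w w1 w2
    exact (((hub f₀).at (i := ⟨(⟨f₀, hf₀⟩, ⟨f, hf⟩), hcl⟩) w1).clm_apply
      (w2.comp w (C.contDiffAt_Tf H hm hf₀ hf w1))).congr_of_eventuallyEq
      (mem_of_superset (o.mem_nhds w1) fun y hy => C.xC_rel H hm hf₀ hf hy)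
  obtain ⟨β, hβ, hs⟩ := Metric.eventually_nhds_iff_ball.1 ev
  obtain ⟨K, δ, hK, hδ, hstep⟩ := C.step H hm T
  set ε := min (min δ (C.rr m)) (β / 4 / K) with hε
  have ε0 : 0 < ε := by positivity
  have ε1 : ε ≤ δ := (min_le_left _ _).trans (min_le_left _ _)
  have ε2 : ε ≤ C.rr m := (min_le_left _ _).trans (min_le_right _ _)
  have ε3 : K * ε ≤ β / 4 := (le_div_iff₀' hK).1 (min_le_right _ _)
  obtain ⟨R, R0, R1, hc⟩ := hch ε ε0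
  have hA := C.xA_ok H hm (f₀ := f₀) (ε := ε) hT.le ε2
  obtain ⟨M, M0, hM⟩ := C.norm_pj H hm
  have sec : Sec (C.xA f₀ T ε ε) (fun f f' => C.xC f.1 f'.1) fun f => C.pj f.1 := by
    refine ⟨hub f₀, fun f => (C.continuousOn_pj' H hm f.2).mono fun w hw =>
      mem_closedBall_zero_iff.2 (C.x_le_rr H hm hw), ⟨M, M0, fun f w hw =>
        (hM f.1 w f.2 (C.x_le_rr H hm hw)).2.2⟩, fun f f' _ w hw => C.xC_rel H hm f.2 f'.2 hw, ?_⟩
    have hg : ∀ f : (C.xA f₀ T ε ε).Gd, ∃ k, C.Deck k ∧ C.dd (k f.1.1.1) f₀.1 ≤ T + 1 ∧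
        ∀ w ∈ ball (0 : ZZ m) ε, w ∈ C.dm (fg k f.1.1) f₀ ∧
          C.Tf (fg k f.1.1) f₀ w ∈ ball (0 : ZZ m) (β / 2) := fun ⟨f, k, t, hk, a1, a2, a3⟩ =>
      ⟨k, hk, by
        have := C.dd_triangle ha.le (k f.1.1) (C.gd (k f.1.1) f.1.2.1 t) f₀.1
        rw [Un.dd_gd_zero C ((hk.un C).2 f.2.un), C.dd_comm (C.gd _ _ _)] at this
        change C.dd (k f.1.1) f₀.1 ≤ T + 1
        linarith [(C.rad H hm).le], fun w hw => by
        obtain ⟨b1, b2, -⟩ := hstep (fg k f.1) f₀ w t ε (f.2.fg C hk) hf₀ a1 ε1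
          (mem_ball_zero_iff.1 hw).le a2 a3
        exact ⟨b1, mem_ball_zero_iff.2 (by linarith)⟩⟩
    choose k hk d1 d2 using hg
    let e : (C.xA f₀ T ε ε).Gd → (C.xA f₀ T ε ε).P := fun f =>
      ⟨(⟨fg (k f) f.1.1, f.1.2.fg C (hk f)⟩, ⟨f₀, hf₀⟩), d1 f⟩
    have u1 := hA.ub.mono e (fun _ => isOpen_ball) fun f w hw => (d2 f w hw).1
    have u2 := (hub f₀).mono e (fun _ => isOpen_ball) fun f w hw => (d2 f w hw).1
    have u3 := UB.of_compact (U := fun _ : (C.xA f₀ T ε ε).Gd => ball (0 : ZZ m) (β / 2))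
      isOpen_ball (fun w hw => (hs w hw).contDiffWithinAt) (isCompact_closedBall 0 (β / 2))
      (closedBall_subset_ball (by linarith)) (fun _ => isOpen_ball) fun _ => ball_subset_closedBall
    refine (u2.clm_apply (u3.comp u1 fun f w hw => (d2 f w hw).2)).congr fun f w hw => ?_
    exact (C.pj_fg H hm f.1.2 (hk f) (C.Dm_of_lt H hm f.1.2
      ((mem_ball_zero_iff.1 hw).trans_le ε2))).symm.trans
      (C.xC_rel H hm (f.1.2.fg C (hk f)) hf₀ (d2 f w hw).1)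
  refine C.sm_of_chart H hm fun γ hγ => ?_
  obtain ⟨f, hf, -, e⟩ := C.exists_ge_zero H hm (ξ := γ.1) (η := γ.2) hγ 0
  exact ⟨f, 0, hf, C.Dm_of_lt H hm hf (by simpa), e, C.contDiffAt_Su H hm hf (by simpa)
    ((sec.smooth hA (C.xS_ok H hm hf₀ hT ε0 R0 R1 hc) (C.xU_ok H hm hf₀ hT ε0 R0 R1 hc)
      (C.x_trans H hm) ⟨f, hf⟩).contDiffAt (ball_mem_nhds _ r0))⟩

end Cov

theorem uxS : UxS := fun _ _ _ _ _ _ C _ H hm _ hf ⟨_, hO, ⟨_, hz⟩, hs, h⟩ =>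
  C.exitT H hm hf (mem_ball_zero_iff.1 (hs hz))
    (mem_of_superset (hO.mem_nhds hz) fun _ hw => h.contDiffAt (hO.mem_nhds hw))

end Crest.Agent.N221
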