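import Crest.Agent.N221.Ex.Slope

/-! Row 221, block EXIT: a function with uniform first order expansions along two transverse
families of graphs is `C¹`. -/

set_option autoImplicit false
set_option linter.unusedSectionVars false

open Set Metric
open scoped ContDiff

namespace Crest.Agent.N221.Ex

variable {E V : Type} [NormedAddCommGroup E] [NormedSpace ℝ E] [FiniteDimensional ℝ E]
  [NormedAddCommGroup V] [NormedSpace ℝ V] [FiniteDimensional ℝ V]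
  {At : Atl E} {S U : Side At} {s : At.F → E × E → V}

namespace C1P

omit [FiniteDimensional ℝ E] [FiniteDimensional ℝ V] in
/-- the estimate at a corner -/
theorem key {Su Ss Ss' : E →L[ℝ] E} {Lu Ls Ls' : E →L[ℝ] V} {u dq dp P g : E} {a Δ : V}
    {c c0 C ε n : ℝ} (hc0 : 0 < c0) (hc : 0 ≤ c) (hC : 0 ≤ C) (hε : 16 * c * ε ≤ c0)
    (low : ∀ e, c0 * ‖e‖ ≤ ‖Su e - Ss e‖) (hP : Su P - Ss P = dp - Ss dq)
    (b1 : ‖Ss‖ ≤ c) (b2 : ‖Lu‖ ≤ C) (b3 : ‖Ls‖ ≤ C) (b4 : ‖Ss' - Ss‖ ≤ c0 / 4)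
    (n1 : ‖dq‖ ≤ n) (n2 : ‖dp‖ ≤ n) (e1 : ‖u‖ ≤ 2 * ε) (e2 : ‖u - dq‖ ≤ 2 * ε)
    (g1 : ‖g - Su u‖ ≤ c * ‖u‖ ^ 2) (g2 : ‖g - dp - Ss' (u - dq)‖ ≤ c * ‖u - dq‖ ^ 2)
    (l1 : ‖a - Lu u‖ ≤ C * ‖u‖ ^ 2) (l2 : ‖a - Δ - Ls' (u - dq)‖ ≤ C * ‖u - dq‖ ^ 2) :
    ‖Δ - (Lu P + Ls (dq - P))‖ ≤
      (2 * C / c0 * (‖Ss' - Ss‖ * (2 * (1 + c + c0) / c0 + 1) +
        2 * c * (2 * (1 + c + c0) / c0 + 1) ^ 2 * n) + ‖Ls' - Ls‖ * (2 * (1 + c + c0) / c0 + 1) +
        2 * C * (2 * (1 + c + c0) / c0 + 1) ^ 2 * n) * n := by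
  have n0 : 0 ≤ n := (norm_nonneg _).trans n1
  have u0 := norm_nonneg u
  have v0 := norm_nonneg (u - dq)
  -- the remainder
  have r : ‖(Ss' - Ss) (u - dq) + (g - dp - Ss' (u - dq)) - (g - Su u)‖ ≤
      ‖Ss' - Ss‖ * ‖u - dq‖ + c * ‖u - dq‖ ^ 2 + c * ‖u‖ ^ 2 :=
    norm_sub_le_of_le (norm_add_le_of_le ((Ss' - Ss).le_opNorm _) g2) g1
  have hw := low (u - P)
  rw [show Su (u - P) - Ss (u - P) =
      (Ss' - Ss) (u - dq) + (g - dp - Ss' (u - dq)) - (g - Su u) by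
    rw [map_sub, map_sub, sub_sub_sub_comm, hP, sub_apply, map_sub Ss]; abel] at hw
  replace hw := hw.trans r
  have hp := low P
  rw [hP] at hp
  replace hp := hp.trans (norm_sub_le_of_le n2 (Ss.le_of_opNorm_le_of_le b1 n1))
  have t1 : ‖u‖ ≤ ‖u - P‖ + ‖P‖ := norm_le_norm_sub_add u P
  have t2 : ‖u - dq‖ ≤ ‖u‖ + n := norm_sub_le_of_le le_rfl n1
  have k1 : ‖u‖ ≤ 2 * (1 + c + c0) / c0 * n := by
    have a1 : ‖Ss' - Ss‖ * ‖u - dq‖ ≤ c0 / 4 * (‖u‖ + n) := by gcongr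
    have a2 : c * ‖u - dq‖ ≤ c0 / 8 := by linarith [mul_le_mul_of_nonneg_left e2 hc]
    have a3 : c * ‖u‖ ≤ c0 / 8 := by linarith [mul_le_mul_of_nonneg_left e1 hc]
    have a4 : c * ‖u - dq‖ * ‖u - dq‖ ≤ c0 / 8 * (‖u‖ + n) := by gcongr
    have a5 := mul_le_mul_of_nonneg_right a3 u0
    have a6 := mul_le_mul_of_nonneg_left t1 hc0.le
    rw [div_mul_eq_mul_div, le_div_iff₀ hc0]
    linarith [mul_nonneg hc0.le n0]
  have p : 0 ≤ 2 * (1 + c + c0) / c0 := by positivity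
  generalize 2 * (1 + c + c0) / c0 = D at k1 p ⊢
  have k2 : ‖u - dq‖ ≤ (D + 1) * n := by linarith
  have k3 : ‖u‖ ≤ (D + 1) * n := by linarith
  have k4 : ‖u - P‖ ≤ (‖Ss' - Ss‖ * ((D + 1) * n) + c * ((D + 1) * n) ^ 2 +
      c * ((D + 1) * n) ^ 2) / c0 := by
    rw [le_div_iff₀' hc0]
    exact hw.trans (by gcongr)
  rw [show Δ - (Lu P + Ls (dq - P)) = Lu (u - P) - Ls (u - P) - (Ls' - Ls) (u - dq) + (a - Lu u) -
      (a - Δ - Ls' (u - dq)) by simp only [map_sub, sub_apply]; abel]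
  refine (norm_sub_le_of_le (norm_add_le_of_le (norm_sub_le_of_le (norm_sub_le_of_le
    (Lu.le_of_opNorm_le_of_le b2 k4) (Ls.le_of_opNorm_le_of_le b3 k4))
    ((Ls' - Ls).le_of_opNorm_le_of_le le_rfl k2))
    (l1.trans (by gcongr : _ ≤ C * ((D + 1) * n) ^ 2)))
    (l2.trans (by gcongr : _ ≤ C * ((D + 1) * n) ^ 2))).trans (le_of_eq ?_)
  ring

theorem inv_of_low {L : E →L[ℝ] E} {c : ℝ} (hc : 0 < c) (h : ∀ e, c * ‖e‖ ≤ ‖L e‖) :
    L.IsInvertible :=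
  ⟨(LinearEquiv.ofInjectiveEndo (L : E →ₗ[ℝ] E) ((injective_iff_map_eq_zero _).2 fun e he => by
    have := h e
    rw [show L e = 0 from he, norm_zero] at this
    exact norm_le_zero_iff.1 (nonpos_of_mul_nonpos_right this hc))).toContinuousLinearEquiv, rfl⟩

/-- Taylor expansion of the graphs -/
theorem graph (hS : S.Ok) : ∃ c : ℝ, 1 ≤ c ∧ ∀ f, ∀ z ∈ ball (0 : E × E) At.r, ‖S.sl f z‖ ≤ c ∧
    ∀ q ∈ ball (0 : E) At.r, ‖S.g f z q - z.2 - S.sl f z (q - z.1)‖ ≤ c * ‖q - z.1‖ ^ 2 := by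
  have := FiniteDimensional.complete ℝ E
  obtain ⟨c, hc, h⟩ := hS.ub.taylor
  refine ⟨c, hc, fun f z hz => ?_⟩
  have h1 : z.1 ∈ ball (0 : E) At.r :=
    mem_ball_zero_iff.2 ((norm_fst_le z).trans_lt (mem_ball_zero_iff.1 hz))
  refine ⟨((h ⟨(f, z), hz⟩).1 _ h1).2, fun q hq => ?_⟩
  have h2 := ((h ⟨(f, z), hz⟩).2 _ (convex_ball _ _) Subset.rfl _ h1 q hq).2.2
  rwa [hS.on f z hz] at h2

end C1P

open C1P ContinuousLinearMap Filter Topology in
theorem c1_of_leaf (hA : At.Ok) (hS : S.Ok) (hU : U.Ok) (hT : Trans S U) (h1 : Leaf S s)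
    (h2 : Leaf U s) : ∃ C : ℝ, 0 < C ∧ ∀ f, ∃ δ > 0, ContDiffOn ℝ 1 (s f) (ball 0 δ) ∧
      ‖fderiv ℝ (s f) 0‖ ≤ C := by
  have := FiniteDimensional.complete ℝ E
  obtain ⟨cs, hcs, gS⟩ := graph hS
  obtain ⟨cu, hcu, gU⟩ := graph hU
  obtain ⟨c0, hc0, low⟩ := hT.low
  obtain ⟨Cs, hCs, h1⟩ := h1
  obtain ⟨Cu, hCu, h2⟩ := h2
  refine ⟨(Cs + Cu) * (1 + 2 * ((1 + cs) / c0)), by positivity, fun f => ?_⟩
  obtain ⟨d1, hd1, Ls, cLs, h1⟩ := h1 f
  obtain ⟨d2, hd2, Lu, cLu, h2⟩ := h2 f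
  have hr := hA.r_pos
  obtain ⟨ε, hε, e1, e2, e3, e4⟩ : ∃ ε > 0, ε ≤ d1 ∧ ε ≤ d2 ∧ ε ≤ At.r ∧ 16 * (cs + cu) * ε ≤ c0 :=
    ⟨min (min d1 d2) (min At.r (c0 / (16 * (cs + cu)))), by positivity,
      (min_le_left _ _).trans (min_le_left _ _), (min_le_left _ _).trans (min_le_right _ _),
      (min_le_right _ _).trans (min_le_left _ _),
      (le_div_iff₀' (by positivity)).1 ((min_le_right _ _).trans (min_le_right _ _))⟩
  obtain ⟨δ, hδ, cor⟩ := hT.corner f ε hε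
  have s0 : ball (0 : E × E) (min δ ε) ⊆ ball 0 δ := ball_subset_ball (min_le_left _ _)
  have sε : ball (0 : E × E) (min δ ε) ⊆ ball 0 ε := ball_subset_ball (min_le_right _ _)
  have s1 := sε.trans (ball_subset_ball e1)
  have s2 := sε.trans (ball_subset_ball e2)
  have s3 := sε.trans (ball_subset_ball e3)
  have cS := (hS.cont_sl hr f).mono s3
  have cU := (hU.cont_sl hr f).mono s3
  have inv : ∀ z ∈ ball (0 : E × E) (min δ ε), (U.sl f z - S.sl f z).IsInvertible :=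
    fun z hz => inv_of_low hc0 (low f z (s3 hz))
  let P : E × E → E × E →L[ℝ] E := fun z =>
    (U.sl f z - S.sl f z).inverse ∘L (snd ℝ E E - S.sl f z ∘L fst ℝ E E)
  let D : E × E → E × E →L[ℝ] V := fun z => Lu z ∘L P z + Ls z ∘L (fst ℝ E E - P z)
  have hP : ∀ z ∈ ball (0 : E × E) (min δ ε), ∀ h,
      U.sl f z (P z h) - S.sl f z (P z h) = h.2 - S.sl f z h.1 :=
    fun z hz h => (inv z hz).self_apply_inverse _
  have cP : ContinuousOn P (ball 0 (min δ ε)) :=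
    ContinuousOn.clm_comp (fun z hz => ContinuousAt.comp_continuousWithinAt
      (f := fun z => U.sl f z - S.sl f z) ((inv z hz).contDiffAt_map_inverse (n := 0)).continuousAt
      (cU.sub cS z hz)) (continuousOn_const.sub (cS.clm_comp continuousOn_const))
  have cD : ContinuousOn D (ball 0 (min δ ε)) :=
    ((cLu.mono s2).clm_comp cP).add ((cLs.mono s1).clm_comp (continuousOn_const.sub cP))
  have der : ∀ z ∈ ball (0 : E × E) (min δ ε), HasFDerivAt (s f) (D z) z := fun z hz => by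
    have nb := isOpen_ball.mem_nhds hz
    have t1 : Tendsto (fun z' => ‖S.sl f z' - S.sl f z‖) (𝓝 z) (𝓝 0) :=
      tendsto_iff_norm_sub_tendsto_zero.1 (cS.continuousAt nb)
    have t2 : Tendsto (fun z' => ‖Ls z' - Ls z‖) (𝓝 z) (𝓝 0) :=
      tendsto_iff_norm_sub_tendsto_zero.1 ((cLs.mono s1).continuousAt nb)
    have t3 : Tendsto (fun z' => ‖z' - z‖) (𝓝 z) (𝓝 0) := tendsto_norm_sub_self z
    have t4 := ((((t1.mul_const (2 * (1 + (cs + cu) + c0) / c0 + 1)).add (t3.const_mul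
      (2 * (cs + cu) * (2 * (1 + (cs + cu) + c0) / c0 + 1) ^ 2))).const_mul
      (2 * (Cs + Cu) / c0)).add (t2.mul_const (2 * (1 + (cs + cu) + c0) / c0 + 1))).add
      (t3.const_mul (2 * (Cs + Cu) * (2 * (1 + (cs + cu) + c0) / c0 + 1) ^ 2))
    simp only [zero_mul, mul_zero, add_zero] at t4
    refine hasFDerivAt_iff_isLittleO.2 (Asymptotics.isLittleO_iff.2 fun θ hθ => ?_)
    filter_upwards [nb, t1.eventually_le_const (by positivity : 0 < c0 / 4),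
      t4.eventually_le_const hθ] with z' hz' a1 a2
    obtain ⟨q, hq, e⟩ := cor z (s0 hz) z' (s0 hz')
    have nq : ∀ w ∈ ball (0 : E × E) (min δ ε), ‖q - w.1‖ ≤ 2 * ε := fun w hw => by
      linarith [norm_sub_le q w.1, mem_ball_zero_iff.1 hq, norm_fst_le w,
        mem_ball_zero_iff.1 (sε hw)]
    have e5 : q - z.1 - (z' - z).1 = q - z'.1 := sub_sub_sub_cancel_right _ _ _
    refine (key (Su := U.sl f z) (Ss := S.sl f z) (Ss' := S.sl f z') (Lu := Lu z) (Ls := Ls z)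
      (Ls' := Ls z') (u := q - z.1) (g := U.g f z q - z.2) (a := s f (q, U.g f z q) - s f z)
      hc0 (by positivity) (by positivity : 0 ≤ Cs + Cu) e4 (low f z (s3 hz))
      (hP z hz (z' - z)) ((gS f z (s3 hz)).1.trans (by linarith))
      ((h2 z (s2 hz)).1.trans (by linarith)) ((h1 z (s1 hz)).1.trans (by linarith)) a1
      (norm_fst_le _) (norm_snd_le _) (nq z hz) (e5 ▸ nq z' hz') ?_ ?_ ?_ ?_).trans
      (mul_le_mul_of_nonneg_right a2 (norm_nonneg _))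
    · exact ((gU f z (s3 hz)).2 q (ball_subset_ball e3 hq)).trans (by gcongr; linarith)
    · rw [e5, Prod.snd_sub, sub_sub_sub_cancel_right, e]
      exact ((gS f z' (s3 hz')).2 q (ball_subset_ball e3 hq)).trans (by gcongr; linarith)
    · exact ((h2 z (s2 hz)).2 q (ball_subset_ball e2 hq)).trans (by gcongr; linarith)
    · rw [e5, sub_sub_sub_cancel_right, e]
      exact ((h1 z' (s1 hz')).2 q (ball_subset_ball e1 hq)).trans (by gcongr; linarith)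
  have h0 : (0 : E × E) ∈ ball 0 (min δ ε) := mem_ball_self (lt_min hδ hε)
  refine ⟨min δ ε, lt_min hδ hε, ?_, ?_⟩
  · rw [← zero_add (1 : WithTop ℕ∞), contDiffOn_succ_iff_fderiv_of_isOpen isOpen_ball]
    exact ⟨fun z hz => (der z hz).differentiableAt.differentiableWithinAt, by simp,
      contDiffOn_zero.2 (cD.congr fun z hz => (der z hz).fderiv)⟩
  · rw [(der 0 h0).fderiv]
    refine opNorm_le_bound _ (by positivity) fun h => ?_
    have k1 := low f 0 (s3 h0) (P 0 h)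
    rw [hP 0 h0] at k1
    have k2 : ‖P 0 h‖ ≤ (1 + cs) / c0 * ‖h‖ := by
      rw [div_mul_eq_mul_div, le_div_iff₀' hc0]
      linarith [k1.trans (norm_sub_le_of_le (norm_snd_le h)
        ((S.sl f 0).le_of_opNorm_le_of_le (gS f 0 (s3 h0)).1 (norm_fst_le h)))]
    refine (norm_add_le_of_le ((Lu 0).le_of_opNorm_le_of_le (h2 0 (s2 h0)).1 k2)
      ((Ls 0).le_of_opNorm_le_of_le (h1 0 (s1 h0)).1
        (norm_sub_le_of_le (norm_fst_le h) k2))).trans ?_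
    have p : 0 ≤ (1 + cs) / c0 := by positivity
    generalize (1 + cs) / c0 = k at p
    have := norm_nonneg h
    nlinarith [mul_nonneg hCu.le this, mul_nonneg (mul_nonneg hCu.le p) this,
      mul_nonneg (mul_nonneg hCs.le p) this]

end Crest.Agent.N221.Ex
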