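import Mathlib

/-!
Row 221, block EXIT (helper71), abstract part.  An atlas of charts `E × E` with two transverse
families of graphs, each contracted along a chain of charts.  A bounded continuous invariant
section of a uniformly smooth linear cocycle that is uniformly smooth in the charts of a family
`Gd` visited by a dense set of chains is smooth everywhere (`Ex/Main`).
-/

set_option autoImplicit false

open Set Metric
open scoped ContDiff

namespace Crest.Agent.N221.Ex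

/-- uniformly smooth family of maps on open sets -/
structure UB {ι X Y : Type} [NormedAddCommGroup X] [NormedSpace ℝ X] [NormedAddCommGroup Y]
    [NormedSpace ℝ Y] (U : ι → Set X) (φ : ι → X → Y) : Prop where
  op : ∀ i, IsOpen (U i)
  sm : ∀ i, ContDiffOn ℝ ∞ (φ i) (U i)
  bd : ∀ k : ℕ, ∃ c : ℝ, 0 < c ∧ ∀ i, ∀ x ∈ U i, ‖iteratedFDeriv ℝ k (φ i) x‖ ≤ c

/-- charts `ball 0 r ⊆ E × E` indexed by `F`, transitions `T f f'` on `dom f f'` -/
structure Atl (E : Type) where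
  F : Type
  r : ℝ
  ρ : ℝ
  cl : F → F → Prop
  dom : F → F → Set (E × E)
  T : F → F → E × E → E × E
  Gd : Set F

/-- a family of graphs `g f z` through the points `z` of the charts and its contracting chain -/
structure Side {E : Type} (At : Atl E) where
  g : At.F → E × E → E → E
  nx : At.F → At.F
  R : ℝ
  κ : ℝ

variable {E : Type} [NormedAddCommGroup E] [NormedSpace ℝ E]

/-- pairs of close charts -/
abbrev Atl.P (At : Atl E) : Type := {p : At.F × At.F // At.cl p.1 p.2}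

/-- points of charts -/
abbrev Atl.Q (At : Atl E) : Type := {p : At.F × (E × E) // p.2 ∈ ball (0 : E × E) At.r}

structure Atl.Ok (At : Atl E) : Prop where
  r_pos : 0 < At.r
  ρ_le : At.ρ ≤ At.r
  ub : UB (fun p : At.P => At.dom p.1.1 p.1.2) (fun p => At.T p.1.1 p.1.2)
  sub : ∀ f f', At.dom f f' ⊆ ball 0 At.r
  maps : ∀ f f', MapsTo (At.T f f') (At.dom f f') (ball 0 At.r)
  ctr : ∀ f, ∀ z ∈ ball (0 : E × E) At.r, ∃ f', At.cl f f' ∧ z ∈ At.dom f f' ∧ At.T f f' z = 0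

structure Side.Ok {At : Atl E} (S : Side At) : Prop where
  R_pos : 0 < S.R
  R_le : S.R ≤ At.r
  κ_pos : 0 < S.κ
  κ_lt : S.κ < 1
  ub : UB (fun _ : At.Q => ball (0 : E) At.r) (fun p => S.g p.1.1 p.1.2)
  cont : ∀ f, ContinuousOn (fun p : (E × E) × E => S.g f p.1 p.2) (ball 0 At.r ×ˢ ball 0 At.r)
  on : ∀ f, ∀ z ∈ ball (0 : E × E) At.r, S.g f z z.1 = z.2
  nat : ∀ f f', At.cl f f' → ∀ z ∈ At.dom f f', ∀ q, (q, S.g f z q) ∈ At.dom f f' →
    (At.T f f' (q, S.g f z q)).2 = S.g f' (At.T f f' z) (At.T f f' (q, S.g f z q)).1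
  cl : ∀ f, At.cl f (S.nx f)
  zero : ∀ f, At.T f (S.nx f) 0 = 0
  con : ∀ f, ∀ q ∈ ball (0 : E) S.R, (q, S.g f 0 q) ∈ At.dom f (S.nx f) ∧
    (q, S.g f 0 q) ∈ ball (0 : E × E) At.ρ ∧ ‖(At.T f (S.nx f) (q, S.g f 0 q)).1‖ ≤ S.κ * ‖q‖
  dense : ∀ f, ∃ δ > 0, ∀ z ∈ ball (0 : E × E) δ, ∀ ε > 0, ∃ z' ∈ ball (0 : E × E) δ, ∃ f',
    ‖z' - z‖ < ε ∧ At.cl f f' ∧ ball 0 δ ⊆ At.dom f f' ∧ At.T f f' z' = 0 ∧
      ∀ J, ∃ j, J ≤ j ∧ S.nx^[j] f' ∈ At.Gd

/-- slope of the graph through `z` at `z` -/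
noncomputable def Side.sl {At : Atl E} (S : Side At) (f : At.F) (z : E × E) : E →L[ℝ] E :=
  fderiv ℝ (S.g f z) z.1

/-- uniform transversality and local product structure -/
structure Trans {At : Atl E} (S U : Side At) : Prop where
  low : ∃ c > 0, ∀ f, ∀ z ∈ ball (0 : E × E) At.r, ∀ e, c * ‖e‖ ≤ ‖U.sl f z e - S.sl f z e‖
  corner : ∀ f, ∀ ε > 0, ∃ δ > 0, ∀ z ∈ ball (0 : E × E) δ, ∀ z' ∈ ball (0 : E × E) δ,
    ∃ q ∈ ball (0 : E) ε, U.g f z q = S.g f z' q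

/-- bounded continuous invariant section, uniformly smooth in the charts of `Gd` -/
structure Sec (At : Atl E) {V : Type} [NormedAddCommGroup V] [NormedSpace ℝ V]
    (A : At.F → At.F → E × E → V →L[ℝ] V) (s : At.F → E × E → V) : Prop where
  ub : UB (fun p : At.P => At.dom p.1.1 p.1.2) (fun p => A p.1.1 p.1.2)
  cont : ∀ f, ContinuousOn (s f) (ball 0 At.r)
  bdd : ∃ M : ℝ, 0 < M ∧ ∀ f, ∀ z ∈ ball (0 : E × E) At.r, ‖s f z‖ ≤ M
  rel : ∀ f f', At.cl f f' → ∀ z ∈ At.dom f f', s f z = A f f' z (s f' (At.T f f' z))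
  gd : UB (fun _ : At.Gd => ball (0 : E × E) At.ρ) (fun f => s f)

/-- first order expansion of `s` along the graphs, uniform constant, continuous slope -/
def Leaf {At : Atl E} (S : Side At) {V : Type} [NormedAddCommGroup V] [NormedSpace ℝ V]
    (s : At.F → E × E → V) : Prop :=
  ∃ C : ℝ, 0 < C ∧ ∀ f, ∃ δ > 0, ∃ L : E × E → E →L[ℝ] V, ContinuousOn L (ball 0 δ) ∧
    ∀ z ∈ ball (0 : E × E) δ, ‖L z‖ ≤ C ∧ ∀ q ∈ ball (0 : E) δ,
      ‖s f (q, S.g f z q) - s f z - L z (q - z.1)‖ ≤ C * ‖q - z.1‖ ^ 2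

end Crest.Agent.N221.Ex
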