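import Crest.Agent.N221.Ch.Prd

/-! Row 221, block EXIT (helper71): the projector on `E^u` along `E^s` in the Darboux charts. -/

set_option autoImplicit false
set_option linter.unusedSectionVars false
set_option linter.unusedVariables false

open Set Filter Topology Metric
open scoped ContDiff RealInnerProductSpace
open Crest.GeometryTopology.Submanifold
open Crest.Agent.R241.DDefs Crest.Agent.R241.D2
open Crest.Agent.R208.J Crest.Agent.R208.L

noncomputable section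

namespace Crest.Agent.N221

section alg

variable {m : ℕ}

/-- projector on the graph of `Q` along the graph of `P` -/
def pjo (P Q : Euc m →L[ℝ] Euc m) : ZZ m →L[ℝ] ZZ m :=
  ((ContinuousLinearMap.id ℝ (Euc m)).prod Q) ∘L Ring.inverse (Q - P) ∘L
    (ContinuousLinearMap.snd ℝ _ _ - P ∘L ContinuousLinearMap.fst ℝ _ _)

/-- the reversal as a linear map -/
def flpL (m : ℕ) : ZZ m →L[ℝ] ZZ m :=
  (ContinuousLinearMap.fst ℝ _ _).prod (-ContinuousLinearMap.snd ℝ _ _)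

lemma flpL_apply (z : ZZ m) : flpL m z = flp z := rfl

variable {P Q : Euc m →L[ℝ] Euc m}

lemma pjo_apply (x : ZZ m) : pjo P Q x =
    (Ring.inverse (Q - P) (x.2 - P x.1), Q (Ring.inverse (Q - P) (x.2 - P x.1))) := rfl

lemma inv_app (h : IsUnit (Q - P)) (e : Euc m) : Ring.inverse (Q - P) (Q e - P e) = e :=
  congrArg (fun A : Euc m →L[ℝ] Euc m => A e) (Ring.inverse_mul_cancel _ h)

lemma app_inv (h : IsUnit (Q - P)) (e : Euc m) :
    Q (Ring.inverse (Q - P) e) - P (Ring.inverse (Q - P) e) = e :=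
  congrArg (fun A : Euc m →L[ℝ] Euc m => A e) (Ring.mul_inverse_cancel _ h)

lemma pjo_u (h : IsUnit (Q - P)) (e : Euc m) : pjo P Q (e, Q e) = (e, Q e) := by
  rw [pjo_apply, inv_app h]

lemma pjo_s (e : Euc m) : pjo P Q (e, P e) = 0 := by
  rw [pjo_apply]; simp

lemma sub_pjo (h : IsUnit (Q - P)) (x : ZZ m) :
    x - pjo P Q x = ((x - pjo P Q x).1, P (x - pjo P Q x).1) := by
  refine Prod.ext rfl ?_
  have := app_inv h (x.2 - P x.1)
  rw [pjo_apply, Prod.snd_sub, Prod.fst_sub, map_sub P x.1, eq_add_of_sub_eq this]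
  dsimp only
  abel

lemma isUnit_of_low {A : Euc m →L[ℝ] Euc m} {c : ℝ} (hc : 0 < c) (h : ∀ e, c * ‖e‖ ≤ ‖A e‖) :
    IsUnit A ∧ ‖Ring.inverse A‖ ≤ 1 / c := by
  have hi : Function.Injective A := (injective_iff_map_eq_zero A).2 fun e he => by
    have := h e
    rw [he, norm_zero] at this
    exact norm_le_zero_iff.1 (by nlinarith [norm_nonneg e])
  have hu : IsUnit A := ContinuousLinearMap.isUnit_iff_bijective.2
    ⟨hi, (LinearMap.injective_iff_surjective (f := (A : Euc m →ₗ[ℝ] Euc m))).1 hi⟩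
  refine ⟨hu, ContinuousLinearMap.opNorm_le_bound _ (by positivity) fun e => ?_⟩
  have h1 := h (Ring.inverse A e)
  have h2 : A (Ring.inverse A e) = e :=
    congrArg (fun A : Euc m →L[ℝ] Euc m => A e) (Ring.mul_inverse_cancel _ hu)
  rw [h2] at h1
  rw [one_div, inv_mul_eq_div, le_div_iff₀' hc]
  exact h1

lemma contDiffAt_pjo (h : IsUnit (Q - P)) :
    ContDiffAt ℝ ∞ (fun k : (Euc m →L[ℝ] Euc m) × (Euc m →L[ℝ] Euc m) => pjo k.1 k.2) (P, Q) := by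
  obtain ⟨u, hu⟩ := h
  have h1 : ContDiffAt ℝ ∞ (fun k : (Euc m →L[ℝ] Euc m) × (Euc m →L[ℝ] Euc m) =>
      Ring.inverse (k.2 - k.1)) (P, Q) :=
    ContDiffAt.comp (g := Ring.inverse) _ (hu ▸ contDiffAt_ringInverse ℝ u) (by fun_prop)
  have h2 : ContDiff ℝ ∞ fun k : (Euc m →L[ℝ] Euc m) × (Euc m →L[ℝ] Euc m) =>
      (ContinuousLinearMap.id ℝ (Euc m)).prod k.2 :=
    by
      have e : ∀ B : Euc m →L[ℝ] Euc m, (ContinuousLinearMap.id ℝ (Euc m)).prod B =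
          ContinuousLinearMap.inl ℝ _ _ + ContinuousLinearMap.inr ℝ _ _ ∘L B := fun B => by
        ext1 x; simp
      simp only [e]
      exact contDiff_const.add (contDiff_const.clm_comp contDiff_snd)
  exact h2.contDiffAt.clm_comp (h1.clm_comp
    (contDiffAt_const.sub (contDiffAt_fst.clm_comp contDiffAt_const)))

/-- the slopes are recovered from the projector -/
lemma slope_pjo (h : IsUnit (Q - P)) :
    IsUnit (ContinuousLinearMap.fst ℝ _ _ ∘L pjo P Q ∘L ContinuousLinearMap.inr ℝ _ _) ∧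
    Q = (ContinuousLinearMap.snd ℝ _ _ ∘L pjo P Q ∘L ContinuousLinearMap.inr ℝ _ _) ∘L
      Ring.inverse (ContinuousLinearMap.fst ℝ _ _ ∘L pjo P Q ∘L ContinuousLinearMap.inr ℝ _ _) := by
  have e : ContinuousLinearMap.fst ℝ _ _ ∘L pjo P Q ∘L ContinuousLinearMap.inr ℝ _ _ =
      Ring.inverse (Q - P) := by
    ext1 p; simp [pjo_apply]
  rw [e, Ring.inverse_inverse h]
  refine ⟨h.ringInverse, ?_⟩
  ext1 p
  have := inv_app h p
  simp only [ContinuousLinearMap.comp_apply, ContinuousLinearMap.inr_apply, pjo_apply, map_zero,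
    sub_zero, ContinuousLinearMap.coe_snd', ContinuousLinearMap.sub_apply, this]

lemma norm_pjo_le {K c : ℝ} (hP : ‖P‖ ≤ K) (hQ : ‖Q‖ ≤ K) (h : ‖Ring.inverse (Q - P)‖ ≤ c) :
    ‖pjo P Q‖ ≤ (1 + K) * c * (1 + K) := by
  have K0 := (norm_nonneg _).trans hP
  have c0 := (norm_nonneg _).trans h
  refine ContinuousLinearMap.opNorm_le_bound _ (by positivity) fun x => ?_
  have h1 : ‖x.2 - P x.1‖ ≤ (1 + K) * ‖x‖ := by
    have := P.le_of_opNorm_le_of_le hP (norm_fst_le x)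
    linarith [norm_sub_le x.2 (P x.1), norm_snd_le x]
  have h2 := (Ring.inverse (Q - P)).le_of_opNorm_le_of_le h h1
  have h3 := Q.le_of_opNorm_le_of_le hQ h2
  have h4 : 0 ≤ c * ((1 + K) * ‖x‖) := by positivity
  rw [pjo_apply, Prod.norm_def]
  exact max_le (by dsimp only; nlinarith) (by dsimp only; nlinarith)

end alg

namespace Cov

variable {n N m : ℕ} {a : ℝ} {S : Set (Euc N)} {G : Geo n N (-(a ^ 2)) S} (C : Cov G)
variable {f f' : FF n N m} {z : ZZ m} {g : Euc n → Euc n}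

/-- the projector on `E^u` along `E^s` -/
def pj (f : FF n N m) (z : ZZ m) : ZZ m →L[ℝ] ZZ m := pjo (C.Ss f z) (C.Su f z)

lemma pj_s (f : FF n N m) (z : ZZ m) (e : Euc m) : C.pj f z (e, C.Ss f z e) = 0 := pjo_s e

lemma pj_eq (f : FF n N m) (z x : ZZ m) :
    C.pj f z x = ((C.pj f z x).1, C.Su f z (C.pj f z x).1) := rfl

variable (H : Hyp n N a S) (hm : m + 1 = n)
include H hm

lemma Su_Ss_low (hf : C.Frm f) (hz : ‖z‖ ≤ 2 * C.rr m) (e : Euc m) :
    a / 16 * ‖e‖ ≤ ‖C.Su f z e - C.Ss f z e‖ := by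
  obtain ⟨h1, h2⟩ := C.Su_Ss H hm hf hz e
  have h3 := real_inner_le_norm (C.Su f z e - C.Ss f z e) e
  rw [inner_sub_left] at h3
  rcases (norm_nonneg e).eq_or_lt with h | h
  · rw [← h, mul_zero]; exact norm_nonneg _
  · exact le_of_mul_le_mul_right (by nlinarith) h

lemma unit_Su_Ss (hf : C.Frm f) (hz : ‖z‖ ≤ 2 * C.rr m) :
    IsUnit (C.Su f z - C.Ss f z) ∧ ‖Ring.inverse (C.Su f z - C.Ss f z)‖ ≤ 1 / (a / 16) :=
  isUnit_of_low (by have := H.a_pos; positivity) (C.Su_Ss_low H hm hf hz)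

lemma pj_u (hf : C.Frm f) (hz : ‖z‖ ≤ 2 * C.rr m) (e : Euc m) :
    C.pj f z (e, C.Su f z e) = (e, C.Su f z e) := pjo_u (C.unit_Su_Ss H hm hf hz).1 e

lemma sub_pj (hf : C.Frm f) (hz : ‖z‖ ≤ 2 * C.rr m) (x : ZZ m) :
    x - C.pj f z x = ((x - C.pj f z x).1, C.Ss f z (x - C.pj f z x).1) :=
  sub_pjo (C.unit_Su_Ss H hm hf hz).1 x

lemma pj_pj (hf : C.Frm f) (hz : ‖z‖ ≤ 2 * C.rr m) (x : ZZ m) :
    C.pj f z (C.pj f z x) = C.pj f z x := by
  rw [C.pj_eq f z x]; exact C.pj_u H hm hf hz _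

lemma pj_eq_self (hf : C.Frm f) (hz : ‖z‖ ≤ 2 * C.rr m) {x : ZZ m} :
    C.pj f z x = x ↔ x.2 = C.Su f z x.1 :=
  ⟨fun h => by rw [← h]; rfl, fun h => by
    rw [show x = (x.1, C.Su f z x.1) from Prod.ext rfl h]; exact C.pj_u H hm hf hz _⟩

lemma pj_eq_zero (hf : C.Frm f) (hz : ‖z‖ ≤ 2 * C.rr m) {x : ZZ m} :
    C.pj f z x = 0 ↔ x.2 = C.Ss f z x.1 :=
  ⟨fun h => by have := C.sub_pj H hm hf hz x; rw [h, sub_zero] at this; exact congrArg Prod.snd this,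
    fun h => by rw [show x = (x.1, C.Ss f z x.1) from Prod.ext rfl h]; exact C.pj_s f z _⟩

/-- a linear map is determined by its values on `E^s` and `E^u` -/
lemma ext_su {V : Type} [NormedAddCommGroup V] [NormedSpace ℝ V] (hf : C.Frm f)
    (hz : ‖z‖ ≤ 2 * C.rr m) {A B : ZZ m →L[ℝ] V}
    (hs : ∀ e, A (e, C.Ss f z e) = B (e, C.Ss f z e))
    (hu : ∀ e, A (e, C.Su f z e) = B (e, C.Su f z e)) : A = B := by
  refine ContinuousLinearMap.ext fun x => ?_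
  have e : x = (x - C.pj f z x) + C.pj f z x := by abel
  rw [e, map_add, map_add, C.sub_pj H hm hf hz x, hs, C.pj_eq f z x, hu]

lemma om_uu (hf : C.Frm f) (hz : ‖z‖ ≤ 2 * C.rr m) (e e' : Euc m) :
    om (e, C.Su f z e) (e', C.Su f z e') = 0 := by
  have := C.HH_symm H (bas_ne0 (C.ge_GG H hf (C.Dm_of_le H hm hf hz)).2.1) f z.1 e e'
  simp only [om, Su, ContinuousLinearMap.neg_apply, inner_neg_left]
  rw [this, real_inner_comm]; ring

lemma om_ss (hf : C.Frm f) (hz : ‖z‖ ≤ 2 * C.rr m) (e e' : Euc m) :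
    om (e, C.Ss f z e) (e', C.Ss f z e') = 0 := by
  have := C.HH_symm H (bas_ne0 (C.ge_GG H hf (C.Dm_of_le H hm hf hz)).1) f z.1 e e'
  simp only [om, Ss]
  rw [this, real_inner_comm]; ring

/-- both bundles are Lagrangian -/
lemma om_pj (hf : C.Frm f) (hz : ‖z‖ ≤ 2 * C.rr m) (x y : ZZ m) :
    om (C.pj f z x) y = om x (y - C.pj f z y) := by
  have h1 : om (C.pj f z x) (C.pj f z y) = 0 := by
    rw [C.pj_eq f z x, C.pj_eq f z y]; exact C.om_uu H hm hf hz _ _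
  have h2 : om (x - C.pj f z x) (y - C.pj f z y) = 0 := by
    rw [C.sub_pj H hm hf hz x, C.sub_pj H hm hf hz y]; exact C.om_ss H hm hf hz _ _
  simp only [om, Prod.fst_sub, Prod.snd_sub, inner_sub_left, inner_sub_right] at h1 h2 ⊢
  linarith

lemma continuousOn_pj : ContinuousOn (fun k : FF n N m × ZZ m => C.pj k.1 k.2)
    {k | C.Frm k.1 ∧ ‖k.2‖ ≤ 2 * C.rr m} := fun k hk => by
  have hs : {k : FF n N m × ZZ m | C.Frm k.1 ∧ ‖k.2‖ ≤ 2 * C.rr m} ⊆
      {k | C.Frm k.1 ∧ k.2 ∈ C.Dm k.1} := fun k hk => ⟨hk.1, C.Dm_of_le H hm hk.1 hk.2⟩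
  exact (contDiffAt_pjo (C.unit_Su_Ss H hm hk.1 hk.2).1).continuousAt.comp_continuousWithinAt
    (f := fun k : FF n N m × ZZ m => (C.Ss k.1 k.2, C.Su k.1 k.2))
    ((((C.continuousOn_Ss H hm).mono hs).prodMk ((C.continuousOn_Su H hm).mono hs)) k hk)

lemma continuousOn_pj' (hf : C.Frm f) : ContinuousOn (C.pj f) (closedBall 0 (2 * C.rr m)) :=
  (C.continuousOn_pj H hm).comp (f := fun z => (f, z)) (by fun_prop)
    fun _ hz => ⟨hf, mem_closedBall_zero_iff.1 hz⟩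

lemma norm_pj : ∃ K : ℝ, 0 < K ∧ ∀ (f : FF n N m) (z : ZZ m), C.Frm f → ‖z‖ ≤ 2 * C.rr m →
    ‖C.Ss f z‖ ≤ K ∧ ‖C.Su f z‖ ≤ K ∧ ‖C.pj f z‖ ≤ K := by
  obtain ⟨K, hK, h⟩ := C.pq_lip H hm
  have ha := H.a_pos
  refine ⟨max K ((1 + K) * (1 / (a / 16)) * (1 + K)), lt_max_of_lt_left hK, fun f z hf hz => ?_⟩
  have hG := C.ge_GG H hf (C.Dm_of_le H hm hf hz)
  have hq : ‖z.1‖ ≤ 1 := (norm_fst_le z).trans (by linarith [(C.rad H hm).le])
  have h1 : ‖C.Ss f z‖ ≤ K := (h f _ _ _ hf hG.1 hq hq).1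
  have h2 : ‖C.Su f z‖ ≤ K := by rw [Su, norm_neg]; exact (h f _ _ _ hf hG.2.1 hq hq).1
  exact ⟨le_max_of_le_left h1, le_max_of_le_left h2,
    le_max_of_le_right (norm_pjo_le h1 h2 (C.unit_Su_Ss H hm hf hz).2)⟩

/-- naturality -/
lemma pj_Tf (hf : C.Frm f) (hf' : C.Frm f') (hz : z ∈ C.dm f f') :
    fderiv ℝ (C.Tf f f') z ∘L C.pj f z = C.pj f' (C.Tf f f' z) ∘L fderiv ℝ (C.Tf f f') z := by
  have r := C.rr_pos H hm
  have h1 : ‖z‖ ≤ 2 * C.rr m := by linarith [hz.1]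
  have h2 : ‖C.Tf f f' z‖ ≤ 2 * C.rr m := by linarith [(C.Tf_spec H hm hf' hz).1]
  refine C.ext_su H hm hf h1 (fun e => ?_) fun e => ?_
  · simp only [ContinuousLinearMap.comp_apply]
    rw [C.pj_s, map_zero, C.fderiv_Tf_s H hm hf hf' hz, C.pj_s]
  · simp only [ContinuousLinearMap.comp_apply]
    rw [C.pj_u H hm hf h1, C.fderiv_Tf_u H hm hf hf' hz, C.pj_u H hm hf' h2]

lemma pj_fg (hf : C.Frm f) (hg : C.Deck g) (hz : z ∈ C.Dm f) : C.pj (fg g f) z = C.pj f z := by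
  rw [pj, C.Ss_fg H hf hg hz, C.Su_fg H hf hg hz, pj]

lemma pj_fp (hf : C.Frm f) (hz : ‖z‖ ≤ 2 * C.rr m) (x : ZZ m) :
    C.pj (fp f) (flp z) (flp x) = flp (x - C.pj f z x) := by
  have h1 : C.Ss (fp f) (flp z) = -C.Su f z := C.Ss_fp f z
  have h2 : C.Su (fp f) (flp z) = -C.Ss f z := by
    have := C.Ss_fp (fp f) (flp z)
    rw [fp_fp, flp_flp] at this
    rw [this, neg_neg]
  have hz' : ‖flp z‖ ≤ 2 * C.rr m := by rwa [norm_flp]
  have := C.ext_su H hm hf hz (A := C.pj (fp f) (flp z) ∘L flpL m)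
    (B := flpL m ∘L (ContinuousLinearMap.id ℝ _ - C.pj f z)) (fun e => by
      have := C.pj_u H hm (hf.fp C) hz' e
      rw [h2] at this
      simpa [flpL_apply, flp, C.pj_s] using this) fun e => by
      have := C.pj_s (fp f) (flp z) e
      rw [h1] at this
      simpa [flpL_apply, flp, C.pj_u H hm hf hz] using this
  exact congrArg (fun A : ZZ m →L[ℝ] ZZ m => A x) this

lemma contDiffAt_pj (hf : C.Frm f) (hz : ‖z‖ ≤ 2 * C.rr m) (h1 : ContDiffAt ℝ ∞ (C.Ss f) z)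
    (h2 : ContDiffAt ℝ ∞ (C.Su f) z) : ContDiffAt ℝ ∞ (C.pj f) z :=
  ContDiffAt.comp (f := fun z => (C.Ss f z, C.Su f z)) z
    (contDiffAt_pjo (C.unit_Su_Ss H hm hf hz).1) (h1.prodMk h2)

lemma contDiffAt_Su (hf : C.Frm f) (hz : ‖z‖ < 2 * C.rr m) (h : ContDiffAt ℝ ∞ (C.pj f) z) :
    ContDiffAt ℝ ∞ (C.Su f) z := by
  obtain ⟨u, hu⟩ := (slope_pjo (C.unit_Su_Ss H hm hf hz.le).1).1
  have h1 : ContDiffAt ℝ ∞ (fun w => Ring.inverse (ContinuousLinearMap.fst ℝ _ _ ∘L C.pj f w ∘L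
      ContinuousLinearMap.inr ℝ _ _)) z :=
    ContDiffAt.comp (g := Ring.inverse) _ (by rw [pj, ← hu]; exact contDiffAt_ringInverse ℝ u)
      (contDiffAt_const.clm_comp (h.clm_comp contDiffAt_const))
  have h2 : ContDiffAt ℝ ∞ (fun w => ContinuousLinearMap.snd ℝ _ _ ∘L C.pj f w ∘L
      ContinuousLinearMap.inr ℝ _ _) z :=
    contDiffAt_const.clm_comp (h.clm_comp contDiffAt_const)
  refine (h2.clm_comp h1).congr_of_eventuallyEq
    ((isOpen_lt continuous_norm continuous_const).eventually_mem hz |>.mono fun w hw => ?_)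
  exact (slope_pjo (C.unit_Su_Ss H hm hf (le_of_lt hw)).1).2

end Cov

end Crest.Agent.N221
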