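import Crest.Agent.N221.Ex.UB

/-! Row 221, block EXIT: extension and continuity of slopes. -/

set_option autoImplicit false

open Set Metric
open scoped ContDiff

namespace Crest.Agent.N221.Ex

variable {E V : Type} [NormedAddCommGroup E] [NormedSpace ℝ E] [FiniteDimensional ℝ E]
  [NormedAddCommGroup V] [NormedSpace ℝ V] [FiniteDimensional ℝ V]

namespace SlopeP

open Filter Topology

/-- `L` is a slope at `z` -/
def Rel (Φ : E × E → E → V) (δ C : ℝ) (z : E × E) (L : E →L[ℝ] V) : Prop :=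
  ‖L‖ ≤ C ∧ ∀ q ∈ ball (0 : E) δ, ‖Φ z q - Φ z z.1 - L (q - z.1)‖ ≤ C * ‖q - z.1‖ ^ 2

variable {Φ : E × E → E → V} {δ C : ℝ} {z : E × E} {L L' : E →L[ℝ] V}

omit [NormedSpace ℝ E] [FiniteDimensional ℝ E] in
theorem fst_mem (hz : z ∈ ball (0 : E × E) δ) : z.1 ∈ ball (0 : E) δ :=
  mem_ball_zero_iff.2 ((norm_fst_le z).trans_lt (mem_ball_zero_iff.1 hz))

omit [FiniteDimensional ℝ E] [FiniteDimensional ℝ V] in
theorem Rel.deriv (h : Rel Φ δ C z L) (hz : z ∈ ball (0 : E × E) δ) : HasFDerivAt (Φ z) L z.1 := by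
  rw [hasFDerivAt_iff_isLittleO]
  refine (Asymptotics.IsBigO.of_bound C ?_).trans_isLittleO
    (Asymptotics.isLittleO_pow_sub_sub z.1 one_lt_two)
  filter_upwards [isOpen_ball.mem_nhds (fst_mem hz)] with q hq
  simpa using h.2 q hq

omit [FiniteDimensional ℝ E] [FiniteDimensional ℝ V] in
theorem closed (hc : ContinuousOn (fun p : (E × E) × E => Φ p.1 p.2) (ball 0 δ ×ˢ ball 0 δ))
    (hz : z ∈ ball (0 : E × E) δ) {ι : Type} {F : Filter ι} [F.NeBot] {zs : ι → E × E}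
    {Ls : ι → E →L[ℝ] V} (h1 : Tendsto zs F (𝓝 z)) (h2 : Tendsto Ls F (𝓝 L))
    (h : ∀ᶠ i in F, Rel Φ δ C (zs i) (Ls i)) : Rel Φ δ C z L := by
  refine ⟨le_of_tendsto h2.norm (h.mono fun _ h => h.1), fun q hq => ?_⟩
  have h3 : Tendsto (fun i => (zs i).1) F (𝓝 z.1) := (continuous_fst.tendsto z).comp h1
  have c : ∀ {q : E} {qs : ι → E}, q ∈ ball (0 : E) δ → Tendsto qs F (𝓝 q) →
      Tendsto (fun i => Φ (zs i) (qs i)) F (𝓝 (Φ z q)) := fun {q qs} hq h =>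
    (hc.continuousAt (x := (z, q)) ((isOpen_ball.prod isOpen_ball).mem_nhds ⟨hz, hq⟩)).tendsto.comp
      (h1.prodMk_nhds h)
  have h4 := tendsto_const_nhds (x := q).sub h3
  exact le_of_tendsto_of_tendsto (((c hq tendsto_const_nhds).sub (c (fst_mem hz) h3)).sub
    ((isBoundedBilinearMap_apply.continuous.tendsto (L, q - z.1)).comp (h2.prodMk_nhds h4))).norm
    ((h4.norm.pow 2).const_mul C) (h.mono fun _ h => h.2 q hq)

theorem cont_of_exp (hc : ContinuousOn (fun p : (E × E) × E => Φ p.1 p.2) (ball 0 δ ×ˢ ball 0 δ))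
    {L : E × E → E →L[ℝ] V} (h : ∀ z ∈ ball (0 : E × E) δ, Rel Φ δ C z (L z)) :
    ContinuousOn L (ball 0 δ) := fun z hz => by
  have := FiniteDimensional.proper_real (E →L[ℝ] V)
  have hm : ∀ᶠ z in 𝓝[ball 0 δ] z, Rel Φ δ C z (L z) := eventually_mem_nhdsWithin.mono h
  refine (isCompact_closedBall 0 C).tendsto_nhds_of_unique_mapClusterPt
    (hm.mono fun _ h => mem_closedBall_zero_iff.2 h.1) fun L' _ hL => ?_
  obtain ⟨U, h1, h2⟩ := mapClusterPt_iff_ultrafilter.1 hL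
  exact ((closed hc hz (zs := id) (h1.trans nhdsWithin_le_nhds) h2 (h1 hm)).deriv hz).unique
    ((h z hz).deriv hz)

end SlopeP

open SlopeP Filter Topology in
/-- from a dense set of base points to all base points; the slope is continuous -/
theorem slope_ext {Φ : E × E → E → V} {δ C : ℝ} (hδ : 0 < δ)
    (hc : ContinuousOn (fun p : (E × E) × E => Φ p.1 p.2) (ball 0 δ ×ˢ ball 0 δ))
    (h : ∀ z ∈ ball (0 : E × E) δ, ∀ ε > 0, ∃ z' ∈ ball (0 : E × E) δ, ‖z' - z‖ < ε ∧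
      ∃ L : E →L[ℝ] V, ‖L‖ ≤ C ∧
        ∀ q ∈ ball (0 : E) δ, ‖Φ z' q - Φ z' z'.1 - L (q - z'.1)‖ ≤ C * ‖q - z'.1‖ ^ 2) :
    ∃ L : E × E → E →L[ℝ] V, ContinuousOn L (ball 0 δ) ∧ ∀ z ∈ ball (0 : E × E) δ, ‖L z‖ ≤ C ∧
      ∀ q ∈ ball (0 : E) δ, ‖Φ z q - Φ z z.1 - L z (q - z.1)‖ ≤ C * ‖q - z.1‖ ^ 2 := by
  have _ := hδ
  have := FiniteDimensional.proper_real (E →L[ℝ] V)
  have key : ∀ z ∈ ball (0 : E × E) δ, ∃ L, Rel Φ δ C z L := fun z hz => by
    choose zs _ h1 Ls h2 using fun k : ℕ => h z hz _ (Nat.one_div_pos_of_nat (n := k))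
    obtain ⟨L, -, φ, hφ, hL⟩ := (isCompact_closedBall 0 C).tendsto_subseq (x := Ls)
      fun k => mem_closedBall_zero_iff.2 (h2 k).1
    have h3 : Tendsto zs atTop (𝓝 z) := tendsto_iff_norm_sub_tendsto_zero.2 (squeeze_zero
      (fun _ => norm_nonneg _) (fun k => (h1 k).le) tendsto_one_div_add_atTop_nhds_zero_nat)
    exact ⟨L, closed hc hz (h3.comp hφ.tendsto_atTop) hL (.of_forall fun k => h2 (φ k))⟩
  choose! L hL using key
  exact ⟨L, cont_of_exp hc hL, hL⟩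

variable {At : Atl E} {S : Side At}

/-- the slope of the graphs is continuous -/
theorem Side.Ok.cont_sl (hS : S.Ok) (hr : 0 < At.r) (f : At.F) :
    ContinuousOn (S.sl f) (ball 0 At.r) := by
  have _ := hr
  obtain ⟨c, -, hc⟩ := hS.ub.taylor
  refine SlopeP.cont_of_exp (C := c) (hS.cont f) fun z hz => ?_
  have h := hc ⟨(f, z), hz⟩
  exact ⟨(h.1 _ (SlopeP.fst_mem hz)).2, fun q hq =>
    (h.2 _ (convex_ball _ _) Subset.rfl _ (SlopeP.fst_mem hz) q hq).2.2⟩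

end Crest.Agent.N221.Ex
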